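import Vale.Agent.P237.All.Finite.Sound.PieceFacts
import Mathlib.Analysis.Convex.SpecificFunctions.Basic

/-!
P237, finitely many dimensions: a continuous bound of negative integral from the passed tests of the
controls and of the pieces.
-/

noncomputable section

open MeasureTheory Set Real intervalIntegral

namespace Vale.Agent.P237.All.Finite

open Transport Transport.Finite

/-- The even moments. -/
theorem moment_even (q j : ℕ) :
    (∫ y in (0 : ℝ)..1, y ^ (2 * (j + 1)) * semi y ^ q) =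
      (2 * (j : ℝ) + 1) / ((q : ℝ) + 2 * j + 3) * ∫ y in (0 : ℝ)..1, y ^ (2 * j) * semi y ^ q := by
  have h := moment_step q (2 * j)
  have hs := semi_continuous
  have e : (∫ y in (0 : ℝ)..1, y ^ (2 * j) * semi y ^ (q + 2)) =
      (∫ y in (0 : ℝ)..1, y ^ (2 * j) * semi y ^ q) - ∫ y in (0 : ℝ)..1, y ^ (2 * j + 2) * semi y ^ q := by
    rw [← intervalIntegral.integral_sub
      ((show Continuous fun y : ℝ => y ^ (2 * j) * semi y ^ q by fun_prop).intervalIntegrable _ _)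
      ((show Continuous fun y : ℝ => y ^ (2 * j + 2) * semi y ^ q by fun_prop).intervalIntegrable _ _)]
    refine intervalIntegral.integral_congr fun y hy => ?_
    rw [uIcc_of_le zero_le_one] at hy
    simp only [pow_add, semi_sq (t := y) ⟨by linarith [hy.1], hy.2⟩]
    ring
  rw [e] at h
  push_cast at h
  rw [show 2 * (j + 1) = 2 * j + 2 by omega, div_mul_eq_mul_div,
    eq_div_iff (by positivity)]
  linarith

theorem ev_continuous : ∀ l : List ℤ, Continuous fun x : ℝ => ev x l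
  | [] => by simp only [ev]; fun_prop
  | c :: cs => by have := ev_continuous cs; simp only [ev]; fun_prop

/-- A list against the moments. -/
theorem momSum_eq (q : ℕ) : ∀ (l : List ℤ) (j : ℕ) (c : ℚ),
    (c : ℝ) * mass q semi 1 = (∫ y in (0 : ℝ)..1, y ^ (2 * j) * semi y ^ q) →
      (∫ y in (0 : ℝ)..1, y ^ (2 * j) * semi y ^ q * ev (y ^ 2) l) =
        ((momSum (q + 1) j c l : ℚ) : ℝ) * mass q semi 1
  | [], j, c, _ => by simp [momSum, ev]
  | a :: l, j, c, h => by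
    have hs := semi_continuous
    have he := (ev_continuous l).comp (continuous_pow (M := ℝ) 2)
    have ih := momSum_eq q l (j + 1) (c * (2 * (j : ℚ) + 1) / (((q + 1 : ℕ) : ℚ) + 2 * j + 2)) (by
      rw [moment_even q j, ← h]; push_cast; ring)
    calc (∫ y in (0 : ℝ)..1, y ^ (2 * j) * semi y ^ q * ev (y ^ 2) (a :: l))
        = ∫ y in (0 : ℝ)..1, ((a : ℝ) * (y ^ (2 * j) * semi y ^ q) +
            y ^ (2 * (j + 1)) * semi y ^ q * ev (y ^ 2) l) :=
          intervalIntegral.integral_congr fun y _ => by simp only [ev]; ring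
      _ = _ := by
        rw [intervalIntegral.integral_add
            ((show Continuous fun y : ℝ => (a : ℝ) * (y ^ (2 * j) * semi y ^ q) by fun_prop).intervalIntegrable _ _)
            ((show Continuous fun y : ℝ => y ^ (2 * (j + 1)) * semi y ^ q * ev (y ^ 2) l from
              (show Continuous fun y : ℝ => y ^ (2 * (j + 1)) * semi y ^ q by fun_prop).mul he).intervalIntegrable _ _),
          intervalIntegral.integral_const_mul, ih, ← h]
        simp only [momSum]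
        push_cast
        ring

theorem momSum_zero (q : ℕ) (l : List ℤ) :
    (∫ y in (0 : ℝ)..1, semi y ^ q * ev (y ^ 2) l) =
      ((momSum (q + 1) 0 1 l : ℚ) : ℝ) * mass q semi 1 := by
  have := momSum_eq q l 0 1 (by simp [mass_semi])
  simpa using this

/-- A linear cut off around `[a, b]`. -/
def cutOff (a b ε y : ℝ) : ℝ := max 0 (min 1 (min ((y - a) / ε + 1) ((b - y) / ε + 1)))

theorem cutOff_continuous (a b ε : ℝ) : Continuous (cutOff a b ε) := by unfold cutOff; fun_prop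

theorem cutOff_mem (a b ε y : ℝ) : cutOff a b ε y ∈ Icc (0 : ℝ) 1 :=
  ⟨le_max_left _ _, max_le zero_le_one (min_le_left _ _)⟩

theorem cutOff_one {a b ε y : ℝ} (hε : 0 < ε) (hy : y ∈ Icc a b) : cutOff a b ε y = 1 := by
  have h1 : 1 ≤ (y - a) / ε + 1 := le_add_of_nonneg_left (div_nonneg (sub_nonneg.2 hy.1) hε.le)
  have h2 : 1 ≤ (b - y) / ε + 1 := le_add_of_nonneg_left (div_nonneg (sub_nonneg.2 hy.2) hε.le)
  simp [cutOff, min_eq_left (le_min h1 h2)]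

theorem cutOff_zero {a b ε y : ℝ} (hε : 0 < ε) (hy : y ≤ a - ε ∨ b + ε ≤ y) : cutOff a b ε y = 0 := by
  refine max_eq_left ((min_le_right _ _).trans ?_)
  rcases hy with hy | hy
  · refine (min_le_left _ _).trans ?_
    rw [div_add_one hε.ne', div_le_iff₀ hε]; linarith
  · refine (min_le_right _ _).trans ?_
    rw [div_add_one hε.ne', div_le_iff₀ hε]; linarith

/-- The mass of the cut off outside the interval is small. -/
theorem cutOff_int {g : ℝ → ℝ} (hg : Continuous g) {M : ℝ} (hM0 : 0 ≤ M)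
    (hM : ∀ y ∈ Icc (0 : ℝ) 1, g y ≤ M) {a b ε : ℝ} (ha : 0 ≤ a) (hab : a ≤ b) (hb : b ≤ 1)
    (hε : 0 < ε) :
    (∫ y in (0 : ℝ)..1, cutOff a b ε y * g y) ≤ (∫ y in a..b, g y) + 2 * ε * M := by
  have hc : Continuous fun y => cutOff a b ε y * g y := (cutOff_continuous a b ε).mul hg
  have hi : ∀ u v : ℝ, IntervalIntegrable (fun y => cutOff a b ε y * g y) volume u v :=
    fun u v => hc.intervalIntegrable u v
  have hle : ∀ y ∈ Icc (0 : ℝ) 1, cutOff a b ε y * g y ≤ M := fun y hy => by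
    obtain ⟨h0, h1⟩ := cutOff_mem a b ε y
    exact (mul_le_mul_of_nonneg_left (hM y hy) h0).trans (mul_le_of_le_one_left hM0 h1)
  have hz : ∀ u v : ℝ, u ≤ v → (∀ y ∈ Icc u v, y ≤ a - ε ∨ b + ε ≤ y) →
      (∫ y in u..v, cutOff a b ε y * g y) = 0 := fun u v huv h => by
    rw [intervalIntegral.integral_congr (g := fun _ => (0 : ℝ)) fun y hy => ?_,
      intervalIntegral.integral_zero]
    rw [uIcc_of_le huv] at hy
    simp [cutOff_zero hε (h y hy)]
  have hm : ∀ u v : ℝ, 0 ≤ u → u ≤ v → v ≤ 1 →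
      (∫ y in u..v, cutOff a b ε y * g y) ≤ (v - u) * M := fun u v h0 huv h1 => by
    refine (intervalIntegral.integral_mono_on huv (hi u v) (_root_.intervalIntegrable_const (c := M))
      fun y hy => hle y ⟨h0.trans hy.1, hy.2.trans h1⟩).trans_eq ?_
    simp
  have hmid : (∫ y in a..b, cutOff a b ε y * g y) = ∫ y in a..b, g y :=
    intervalIntegral.integral_congr fun y hy => by
      rw [uIcc_of_le hab] at hy
      simp [cutOff_one hε hy]
  rw [← intervalIntegral.integral_add_adjacent_intervals (hi 0 (max 0 (a - ε))) (hi _ 1),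
    ← intervalIntegral.integral_add_adjacent_intervals (hi (max 0 (a - ε)) a) (hi a 1),
    ← intervalIntegral.integral_add_adjacent_intervals (hi a b) (hi b 1),
    ← intervalIntegral.integral_add_adjacent_intervals (hi b (min 1 (b + ε))) (hi _ 1), hmid]
  have z1 : (∫ y in (0 : ℝ)..max 0 (a - ε), cutOff a b ε y * g y) = 0 := by
    rcases le_total (a - ε) 0 with h | h
    · rw [max_eq_left h, intervalIntegral.integral_same]
    · rw [max_eq_right h]; exact hz _ _ h fun y hy => Or.inl hy.2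
  have z2 : (∫ y in min 1 (b + ε)..1, cutOff a b ε y * g y) = 0 := by
    rcases le_total 1 (b + ε) with h | h
    · rw [min_eq_left h, intervalIntegral.integral_same]
    · rw [min_eq_right h]; exact hz _ _ h fun y hy => Or.inr hy.1
  have m1 := hm (max 0 (a - ε)) a (le_max_left _ _) (max_le ha (by linarith)) (hab.trans hb)
  have m2 := hm b (min 1 (b + ε)) (ha.trans hab) (le_min hb (by linarith)) (min_le_left _ _)
  have l1 : a - max 0 (a - ε) ≤ ε := by linarith [le_max_right 0 (a - ε)]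
  have l2 : min 1 (b + ε) - b ≤ ε := by linarith [min_le_right 1 (b + ε)]
  have := mul_le_mul_of_nonneg_right l1 hM0
  have := mul_le_mul_of_nonneg_right l2 hM0
  linarith

/-- The controls of a piece at a point, clamped. -/
def clampU (C : Cell) (P : Piece) (y : ℝ) : ℝ :=
  max 0 (min 1 ((y ^ 2 - zq C P.Y0) / (zq C P.Y1 - zq C P.Y0)))

/-- The part of a piece. -/
def gP (C : Cell) (P : Piece) (w y : ℝ) : ℝ :=
  ((1 - clampU C P y) * ((P.S0 : ℝ) / C.K.U) ^ (C.K.p - 1) +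
      clampU C P y * (((P.T1 : ℝ) + 1) / C.K.U) ^ (C.K.p - 1)) *
    ctlAt C.K.U w (quadB P.L0 (clampU C P y)) (quadB P.L1 (clampU C P y)) (quadB P.L2 (clampU C P y))

/-- The sum of the parts. -/
def sumP (C : Cell) (w ε y : ℝ) : List Piece → ℝ
  | [] => 0
  | P :: l => cutOff ((P.Y0 : ℝ) / C.Q) ((P.Y1 : ℝ) / C.Q) ε y * gP C P w y + sumP C w ε y l

/-- The bound of a cell. -/
def piFun (C : Cell) (w ε y : ℝ) : ℝ :=
  semi y ^ (C.K.p - 1) * ctlAt C.K.U w (ev (y ^ 2) C.P0) (ev (y ^ 2) C.P1) (ev (y ^ 2) C.P2) +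
    sumP C w ε y C.pieces

/-- What the budget uses of a piece. -/
structure PieceSize (C : Cell) (P : Piece) : Prop where
  hY0 : 0 ≤ P.Y0
  hY : P.Y0 < P.Y1
  hY1 : P.Y1 ≤ C.Q
  hL : ∀ L ∈ [P.L0, P.L1, P.L2], ∀ x ∈ L, (0 : ℤ) ≤ x
  hS0 : 0 ≤ P.S0
  hS0' : C.K.U * C.K.U * (C.Q * C.Q - P.Y0 * P.Y0) ≤ P.S0 * P.S0 * (C.Q * C.Q)
  hS1 : 0 ≤ P.T1 + 1
  hS1' : C.K.U * C.K.U * (C.Q * C.Q - P.Y1 * P.Y1) ≤ (P.T1 + 1) * (P.T1 + 1) * (C.Q * C.Q)

theorem pieceSize_of {C : Cell} {Mu Ml : ℚ} {P : Piece} (h : pieceTest C Mu Ml P = true) :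
    PieceSize C P := by
  simp only [pieceTest, Bool.and_eq_true, Bool.or_eq_true, Bool.not_eq_true', decide_eq_true_eq,
    List.all_eq_true] at h
  obtain ⟨⟨⟨⟨⟨⟨⟨⟨⟨⟨⟨⟨⟨⟨⟨⟨⟨⟨hY0, hY⟩, hY1⟩, -⟩, -⟩, -⟩, hl0⟩, hl1⟩, hl2⟩, -⟩, -⟩, -⟩, -⟩, hS0⟩, hS0'⟩,
    hS1⟩, hS1'⟩, -⟩, -⟩ := h
  refine ⟨hY0, hY, hY1, ?_, hS0, hS0', hS1, hS1'⟩
  simp only [List.mem_cons, List.not_mem_nil, or_false, forall_eq_or_imp, forall_eq]
  exact ⟨hl0, hl1, hl2⟩

theorem getD_nonneg {L : List ℤ} (h : ∀ x ∈ L, (0 : ℤ) ≤ x) (i : ℕ) : (0 : ℝ) ≤ (L.getD i 0 : ℤ) := by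
  have : (0 : ℤ) ≤ L.getD i 0 := by
    rw [List.getD_eq_getElem?_getD]
    rcases hi : L[i]? with _ | v
    · simp
    · simpa using h v (List.mem_of_getElem? hi)
  exact_mod_cast this

variable {C : Cell} {P : Piece} {w : ℝ}

theorem quadB_nonneg {L : List ℤ} (h : ∀ x ∈ L, (0 : ℤ) ≤ x) {u : ℝ} (hu : u ∈ Icc (0 : ℝ) 1) :
    0 ≤ quadB L u := by
  have := getD_nonneg h 0
  have := getD_nonneg h 1
  have := getD_nonneg h 2
  have := hu.1
  have : 0 ≤ 1 - u := sub_nonneg.2 hu.2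
  unfold quadB
  positivity

theorem clampU_mem (C : Cell) (P : Piece) (y : ℝ) : clampU C P y ∈ Icc (0 : ℝ) 1 :=
  ⟨le_max_left _ _, max_le zero_le_one (min_le_left _ _)⟩

theorem gP_continuous : Continuous (gP C P w) := by
  unfold gP ctlAt quadB clampU; fun_prop

theorem gP_nonneg (hU : 0 < C.K.U) (hp : PieceSize C P) (hw : w ∈ Icc (0 : ℝ) 1) (y : ℝ) :
    0 ≤ gP C P w y := by
  have hu := clampU_mem C P y
  have := quadB_nonneg (hp.hL _ (by simp : P.L0 ∈ [P.L0, P.L1, P.L2])) hu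
  have := quadB_nonneg (hp.hL _ (by simp : P.L1 ∈ [P.L0, P.L1, P.L2])) hu
  have := quadB_nonneg (hp.hL _ (by simp : P.L2 ∈ [P.L0, P.L1, P.L2])) hu
  have := hw.1
  have : 0 ≤ 1 - w := sub_nonneg.2 hw.2
  have : (0 : ℝ) < C.K.U := by exact_mod_cast hU
  have : (0 : ℝ) ≤ P.S0 := by exact_mod_cast hp.hS0
  have : (0 : ℝ) ≤ (P.T1 : ℝ) + 1 := by exact_mod_cast hp.hS1
  have := hu.1
  have : 0 ≤ 1 - clampU C P y := sub_nonneg.2 hu.2
  unfold gP ctlAt
  positivity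

theorem zq_lt (hQ : 0 < C.Q) (hp : PieceSize C P) : zq C P.Y0 < zq C P.Y1 := by
  have hQ' : (0 : ℝ) < C.Q := by exact_mod_cast hQ
  have h0 : (0 : ℝ) ≤ P.Y0 := by exact_mod_cast hp.hY0
  have h1 : (P.Y0 : ℝ) < P.Y1 := by exact_mod_cast hp.hY
  exact pow_lt_pow_left₀ (div_lt_div_of_pos_right h1 hQ') (div_nonneg h0 hQ'.le) two_ne_zero

theorem semi_le_bd {U : ℤ} {Q Y S : ℤ} (hU : 0 < U) (hQ : 0 < Q) (hY : 0 ≤ Y) (hS : 0 ≤ S)
    (h : U * U * (Q * Q - Y * Y) ≤ S * S * (Q * Q)) {y : ℝ} (hy : (Y : ℝ) / Q ≤ y) :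
    semi y ≤ (S : ℝ) / U := by
  have hU' : (0 : ℝ) < U := by exact_mod_cast hU
  have hQ' : (0 : ℝ) < Q := by exact_mod_cast hQ
  have h0 : (0 : ℝ) ≤ (Y : ℝ) / Q := div_nonneg (by exact_mod_cast hY) hQ'.le
  refine (semi_anti h0 hy).trans ((Real.sqrt_le_iff).2 ⟨div_nonneg (by exact_mod_cast hS) hU'.le, ?_⟩)
  have q := (Int.cast_le (R := ℝ)).2 h
  push_cast at q
  have k := div_le_div_of_nonneg_right q
    (show (0 : ℝ) ≤ (U : ℝ) * U * ((Q : ℝ) * Q) by positivity)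
  refine le_of_eq_of_le ?_ (k.trans_eq ?_) <;> (field_simp; try ring)

/-- The powers of `√(1 - z)` lie below their chords in `z`. -/
theorem semi_pow_chord {q : ℕ} (hq : 2 ≤ q) {a b y u : ℝ} (ha : a ∈ Icc (-1 : ℝ) 1) (hb : b ∈ Icc (-1 : ℝ) 1)
    (hy : y ∈ Icc (-1 : ℝ) 1) (hu : u ∈ Icc (0 : ℝ) 1) (he : y ^ 2 = (1 - u) * a ^ 2 + u * b ^ 2) :
    semi y ^ q ≤ (1 - u) * semi a ^ q + u * semi b ^ q := by
  have key : ∀ v ∈ Icc (-1 : ℝ) 1, semi v ^ q = (1 - v ^ 2) ^ ((q : ℝ) / 2) := fun v hv => by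
    have h0 : 0 ≤ 1 - v ^ 2 := by nlinarith [hv.1, hv.2]
    rw [semi, Real.sqrt_eq_rpow, ← Real.rpow_natCast, ← Real.rpow_mul h0]
    congr 1; ring
  have hq' : (1 : ℝ) ≤ (q : ℝ) / 2 := by rw [le_div_iff₀ two_pos, one_mul]; exact_mod_cast hq
  have h := (convexOn_rpow hq').2 (x := 1 - a ^ 2) (by simp only [mem_Ici]; nlinarith [ha.1, ha.2])
    (y := 1 - b ^ 2) (by simp only [mem_Ici]; nlinarith [hb.1, hb.2]) (sub_nonneg.2 hu.2) hu.1 (by ring)
  rw [key y hy, key a ha, key b hb]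
  simp only [smul_eq_mul] at h
  refine le_of_eq_of_le ?_ h
  rw [he]; ring_nf

theorem sumP_continuous (ε : ℝ) : ∀ l : List Piece, Continuous fun y => sumP C w ε y l
  | [] => by simp only [sumP]; fun_prop
  | _ :: l => by
    simp only [sumP]
    exact ((cutOff_continuous _ _ _).mul gP_continuous).add (sumP_continuous ε l)

theorem piFun_continuous (ε : ℝ) : Continuous (piFun C w ε) := by
  have := semi_continuous
  have h : ∀ l : List ℤ, Continuous fun y : ℝ => ev (y ^ 2) l := fun l =>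
    (ev_continuous l).comp (continuous_pow 2)
  have := h C.P0
  have := h C.P1
  have := h C.P2
  have := sumP_continuous (C := C) (w := w) ε C.pieces
  unfold piFun ctlAt
  fun_prop

theorem sumP_nonneg (hU : 0 < C.K.U) (hw : w ∈ Icc (0 : ℝ) 1) (ε y : ℝ) :
    ∀ l : List Piece, (∀ P ∈ l, PieceSize C P) → 0 ≤ sumP C w ε y l
  | [], _ => le_rfl
  | P :: l, h => add_nonneg
      (mul_nonneg (cutOff_mem _ _ _ _).1 (gP_nonneg hU (h P (by simp)) hw y))
      (sumP_nonneg hU hw ε y l fun Q hQ => h Q (by simp [hQ]))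

theorem sumP_ge (hU : 0 < C.K.U) (hw : w ∈ Icc (0 : ℝ) 1) {ε y : ℝ} (hε : 0 < ε) :
    ∀ l : List Piece, (∀ P ∈ l, PieceSize C P) → ∀ P ∈ l,
      y ∈ Icc ((P.Y0 : ℝ) / C.Q) ((P.Y1 : ℝ) / C.Q) → gP C P w y ≤ sumP C w ε y l
  | [], _, _, hP, _ => absurd hP (by simp)
  | R :: l, h, P, hP, hy => by
    simp only [sumP]
    rcases List.mem_cons.1 hP with rfl | hP
    · rw [cutOff_one hε hy, one_mul]
      exact le_add_of_nonneg_right (sumP_nonneg hU hw ε y l fun Q hQ => h Q (by simp [hQ]))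
    · exact (sumP_ge hU hw hε l (fun Q hQ => h Q (by simp [hQ])) P hP hy).trans
        (le_add_of_nonneg_left (mul_nonneg (cutOff_mem _ _ _ _).1 (gP_nonneg hU (h R (by simp)) hw y)))

/-- The bound covers a piece. -/
theorem piFun_ge (hU : 0 < C.K.U) (hQ : 0 < C.Q) (hp3 : 3 ≤ C.K.p) (hw : w ∈ Icc (0 : ℝ) 1) {ε : ℝ} (hε : 0 < ε)
    (h : ∀ P ∈ C.pieces, PieceSize C P) (hP : P ∈ C.pieces) {y : ℝ}
    (hy : y ∈ Ico ((P.Y0 : ℝ) / C.Q) ((P.Y1 : ℝ) / C.Q)) :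
    semi y ^ (C.K.p - 1) * piAt C P (y ^ 2) w ≤ piFun C w ε y := by
  have hp := h P hP
  have hQ' : (0 : ℝ) < C.Q := by exact_mod_cast hQ
  have h0 : (0 : ℝ) ≤ (P.Y0 : ℝ) / C.Q := div_nonneg (by exact_mod_cast hp.hY0) hQ'.le
  set u := (y ^ 2 - zq C P.Y0) / (zq C P.Y1 - zq C P.Y0) with hu
  have hd := sub_pos.2 (zq_lt hQ hp)
  have hlo : zq C P.Y0 ≤ y ^ 2 := pow_le_pow_left₀ h0 hy.1 2
  have hhi : y ^ 2 ≤ zq C P.Y1 := pow_le_pow_left₀ (h0.trans hy.1) hy.2.le 2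
  have hc : clampU C P y = u := by
    have a : 0 ≤ u := div_nonneg (sub_nonneg.2 hlo) hd.le
    have b : u ≤ 1 := (div_le_one hd).2 (by linarith)
    simp only [clampU]
    rw [← hu, min_eq_right b, max_eq_right a]
  have hn : 0 ≤ ctlAt C.K.U w (quadB P.L0 u) (quadB P.L1 u) (quadB P.L2 u) := by
    have hm : u ∈ Icc (0 : ℝ) 1 := hc ▸ clampU_mem C P y
    have := quadB_nonneg (hp.hL _ (by simp : P.L0 ∈ [P.L0, P.L1, P.L2])) hm
    have := quadB_nonneg (hp.hL _ (by simp : P.L1 ∈ [P.L0, P.L1, P.L2])) hm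
    have := quadB_nonneg (hp.hL _ (by simp : P.L2 ∈ [P.L0, P.L1, P.L2])) hm
    have := hw.1
    have : 0 ≤ 1 - w := sub_nonneg.2 hw.2
    have : (0 : ℝ) < C.K.U := by exact_mod_cast hU
    unfold ctlAt
    positivity
  have hg : semi y ^ (C.K.p - 1) * ctlAt C.K.U w (quadB P.L0 u) (quadB P.L1 u) (quadB P.L2 u) ≤
      sumP C w ε y C.pieces := by
    refine le_trans ?_ (sumP_ge hU hw hε C.pieces h P hP ⟨hy.1, hy.2.le⟩)
    simp only [gP, hc]
    have hm : u ∈ Icc (0 : ℝ) 1 := hc ▸ clampU_mem C P y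
    have hY0 : (0 : ℝ) ≤ P.Y0 := by exact_mod_cast hp.hY0
    have hY : (P.Y0 : ℝ) < P.Y1 := by exact_mod_cast hp.hY
    have hb1 : (P.Y1 : ℝ) / C.Q ≤ 1 := (div_le_one hQ').2 (by exact_mod_cast hp.hY1)
    have hb0 : (0 : ℝ) ≤ (P.Y1 : ℝ) / C.Q := (h0.trans hy.1).trans hy.2.le
    refine mul_le_mul_of_nonneg_right ((semi_pow_chord (q := C.K.p - 1) (by omega)
      (a := (P.Y0 : ℝ) / C.Q) (b := (P.Y1 : ℝ) / C.Q) ⟨by linarith, hy.1.trans (hy.2.le.trans hb1)⟩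
      ⟨by linarith, hb1⟩ ⟨by linarith [h0.trans hy.1], hy.2.le.trans hb1⟩ hm ?_).trans ?_) hn
    · have e : u * (zq C P.Y1 - zq C P.Y0) = y ^ 2 - zq C P.Y0 := div_mul_cancel₀ _ hd.ne'
      simp only [zq] at e ⊢
      linarith
    · have hS1 : semi ((P.Y1 : ℝ) / C.Q) ≤ ((P.T1 : ℝ) + 1) / C.K.U := by
        have := semi_le_bd hU hQ (hp.hY0.trans hp.hY.le) hp.hS1 hp.hS1' le_rfl
        push_cast at this
        exact this
      exact add_le_add (mul_le_mul_of_nonneg_left (pow_le_pow_left₀ (Real.sqrt_nonneg _)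
          (semi_le_bd hU hQ hp.hY0 hp.hS0 hp.hS0' le_rfl) _) (sub_nonneg.2 hm.2))
        (mul_le_mul_of_nonneg_left (pow_le_pow_left₀ (Real.sqrt_nonneg _) hS1 _) hm.1)
  simp only [piFun]
  refine le_of_eq_of_le ?_ (add_le_add le_rfl hg)
  simp only [piAt, ← hu, ctlAt]
  ring

/-- The integral of a part. -/
theorem gP_int (hQ : 0 < C.Q) (hp : PieceSize C P) :
    (∫ y in ((P.Y0 : ℝ) / C.Q)..((P.Y1 : ℝ) / C.Q), gP C P w y) =
      ctlAt C.K.U w ((pieceInt C P P.L0 : ℚ) : ℝ) ((pieceInt C P P.L1 : ℚ) : ℝ)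
        ((pieceInt C P P.L2 : ℚ) : ℝ) := by
  have hQ' : (0 : ℝ) < C.Q := by exact_mod_cast hQ
  set a := (P.Y0 : ℝ) / C.Q with ha
  set b := (P.Y1 : ℝ) / C.Q with hb
  have ha0 : 0 ≤ a := div_nonneg (by exact_mod_cast hp.hY0) hQ'.le
  have hd : 0 < b ^ 2 - a ^ 2 := sub_pos.2 (zq_lt hQ hp)
  have hab : a ≤ b := (div_lt_div_of_pos_right (by exact_mod_cast hp.hY) hQ').le
  set d := b ^ 2 - a ^ 2 with hdd
  set α := ((P.S0 : ℝ) / C.K.U) ^ (C.K.p - 1) with hα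
  set β := (((P.T1 : ℝ) + 1) / C.K.U) ^ (C.K.p - 1) with hβ
  let K1 : ℝ → ℝ := fun y => (y ^ 3 / 3 - a ^ 2 * y) / d
  let K2 : ℝ → ℝ := fun y => (y ^ 5 / 5 - 2 * a ^ 2 * (y ^ 3 / 3) + a ^ 4 * y) / d ^ 2
  let K3 : ℝ → ℝ := fun y =>
    (y ^ 7 / 7 - 3 * a ^ 2 * (y ^ 5 / 5) + 3 * a ^ 4 * (y ^ 3 / 3) - a ^ 6 * y) / d ^ 3
  let J : List ℤ → ℝ → ℝ := fun L y =>
    α * ((L.getD 0 0 : ℤ) * y + 2 * ((L.getD 1 0 : ℤ) - (L.getD 0 0 : ℤ) : ℝ) * K1 y +
      ((L.getD 0 0 : ℤ) - 2 * (L.getD 1 0 : ℤ) + (L.getD 2 0 : ℤ) : ℝ) * K2 y) +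
    (β - α) * ((L.getD 0 0 : ℤ) * K1 y + 2 * ((L.getD 1 0 : ℤ) - (L.getD 0 0 : ℤ) : ℝ) * K2 y +
      ((L.getD 0 0 : ℤ) - 2 * (L.getD 1 0 : ℤ) + (L.getD 2 0 : ℤ) : ℝ) * K3 y)
  let G : ℝ → ℝ := fun y => ctlAt C.K.U w (J P.L0 y) (J P.L1 y) (J P.L2 y)
  have h1 : ∀ y, HasDerivAt K1 ((y ^ 2 - a ^ 2) / d) y := fun y => by
    refine ((((hasDerivAt_pow 3 y).div_const 3).sub ((hasDerivAt_id y).const_mul (a ^ 2))).div_const d).congr_deriv ?_
    push_cast; ring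
  have h2 : ∀ y, HasDerivAt K2 (((y ^ 2 - a ^ 2) / d) ^ 2) y := fun y => by
    refine (((((hasDerivAt_pow 5 y).div_const 5).sub (((hasDerivAt_pow 3 y).div_const 3).const_mul (2 * a ^ 2))).add
      ((hasDerivAt_id y).const_mul (a ^ 4))).div_const (d ^ 2)).congr_deriv ?_
    push_cast; ring
  have h3 : ∀ y, HasDerivAt K3 (((y ^ 2 - a ^ 2) / d) ^ 3) y := fun y => by
    refine ((((((hasDerivAt_pow 7 y).div_const 7).sub (((hasDerivAt_pow 5 y).div_const 5).const_mul (3 * a ^ 2))).add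
      (((hasDerivAt_pow 3 y).div_const 3).const_mul (3 * a ^ 4))).sub
      ((hasDerivAt_id y).const_mul (a ^ 6))).div_const (d ^ 3)).congr_deriv ?_
    push_cast; ring
  have hJ : ∀ L y, HasDerivAt (J L) (((1 - (y ^ 2 - a ^ 2) / d) * α + (y ^ 2 - a ^ 2) / d * β) *
      quadB L ((y ^ 2 - a ^ 2) / d)) y := by
    intro L y
    refine (((((hasDerivAt_id y).const_mul ((L.getD 0 0 : ℤ) : ℝ)).add ((h1 y).const_mul _)).add
      ((h2 y).const_mul _)).const_mul α |>.add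
      (((((h1 y).const_mul ((L.getD 0 0 : ℤ) : ℝ)).add ((h2 y).const_mul _)).add
      ((h3 y).const_mul _)).const_mul (β - α))).congr_deriv ?_
    simp only [quadB]
    ring
  have hG : ∀ y ∈ uIcc a b, HasDerivAt G (gP C P w y) y := by
    intro y hy
    rw [uIcc_of_le hab] at hy
    refine ((((hJ P.L0 y).const_mul ((1 - w) ^ 2)).add ((hJ P.L1 y).const_mul (2 * w * (1 - w)))).add
      ((hJ P.L2 y).const_mul (w ^ 2))).div_const _ |>.congr_deriv ?_
    have h1 := pow_le_pow_left₀ ha0 hy.1 2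
    have h2 := pow_le_pow_left₀ (ha0.trans hy.1) hy.2 2
    simp only [gP, clampU, zq, ← ha, ← hb, ← hdd, ctlAt]
    rw [min_eq_right ((div_le_one hd).2 (by linarith)), max_eq_right (div_nonneg (by linarith) hd.le)]
    ring
  rw [intervalIntegral.integral_eq_sub_of_hasDerivAt hG (gP_continuous.intervalIntegrable _ _)]
  have hQ0 : (C.Q : ℝ) ≠ 0 := hQ'.ne'
  have hW : (P.Y1 : ℝ) ^ 2 - (P.Y0 : ℝ) ^ 2 ≠ 0 := by
    intro h
    rw [hdd, ha, hb, div_pow, div_pow, ← sub_div, h] at hd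
    simp at hd
  have hI : ∀ L : List ℤ, ((pieceInt C P L : ℚ) : ℝ) = J L b - J L a := by
    intro L
    simp only [pieceInt, zadd_eq, zsub_eq, zmul_eq, zpow_eq]
    push_cast
    simp only [J, K1, K2, K3, hdd, ha, hb, hα, hβ, div_pow]
    field_simp
    ring
  rw [hI, hI, hI]
  simp only [G, ctlAt]
  ring

theorem sumP_int (hU : 0 < C.K.U) (hQ : 0 < C.Q) :
    ∀ l : List Piece, (∀ P ∈ l, PieceSize C P) → ∃ K : ℝ, 0 ≤ K ∧ ∀ ε : ℝ, 0 < ε →
      (∫ y in (0 : ℝ)..1, sumP C w ε y l) ≤ ctlAt C.K.U w ((piecesInt C Piece.L0 l : ℚ) : ℝ)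
        ((piecesInt C Piece.L1 l : ℚ) : ℝ) ((piecesInt C Piece.L2 l : ℚ) : ℝ) + ε * K
  | [], _ => ⟨0, le_rfl, fun ε _ => by simp [sumP, piecesInt, ctlAt]⟩
  | P :: l, h => by
    obtain ⟨K, hK0, hK⟩ := sumP_int hU hQ l fun Q hQ => h Q (by simp [hQ])
    have hp := h P (by simp)
    obtain ⟨M, hM⟩ := isCompact_Icc.exists_bound_of_continuousOn
      (s := Icc (0 : ℝ) 1) (gP_continuous (C := C) (P := P) (w := w)).continuousOn
    have hQ' : (0 : ℝ) < C.Q := by exact_mod_cast hQ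
    have ha : 0 ≤ (P.Y0 : ℝ) / C.Q := div_nonneg (by exact_mod_cast hp.hY0) hQ'.le
    have hab : (P.Y0 : ℝ) / C.Q ≤ (P.Y1 : ℝ) / C.Q :=
      (div_lt_div_of_pos_right (by exact_mod_cast hp.hY) hQ').le
    have hb : (P.Y1 : ℝ) / C.Q ≤ 1 := (div_le_one hQ').2 (by exact_mod_cast hp.hY1)
    refine ⟨K + 2 * max M 0, by positivity, fun ε hε => ?_⟩
    have i0 := cutOff_int (gP_continuous (C := C) (P := P) (w := w)) (le_max_right M 0)
      (fun y hy => ((le_abs_self _).trans (hM y hy)).trans (le_max_left _ _)) ha hab hb hε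
    rw [gP_int hQ hp] at i0
    have h1 := hK ε hε
    simp only [sumP, piecesInt]
    rw [intervalIntegral.integral_add
      ((show Continuous fun y => cutOff ((P.Y0 : ℝ) / C.Q) ((P.Y1 : ℝ) / C.Q) ε y * gP C P w y from
        (cutOff_continuous _ _ _).mul gP_continuous).intervalIntegrable _ _)
      ((sumP_continuous ε l).intervalIntegrable _ _)]
    refine (add_le_add i0 h1).trans_eq ?_
    simp only [ctlAt]
    push_cast
    ring

/-- A continuous bound with negative integral. -/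
theorem budget (hU : 0 < C.K.U) (hQ : 0 < C.Q) (hp : 1 ≤ C.K.p) (hw : w ∈ Icc (0 : ℝ) 1)
    (h : ∀ P ∈ C.pieces, PieceSize C P) (h0 : ctlTest C C.P0 Piece.L0 = true)
    (h1 : ctlTest C C.P1 Piece.L1 = true) (h2 : ctlTest C C.P2 Piece.L2 = true) :
    ∃ ε : ℝ, 0 < ε ∧ ∫ y in (0 : ℝ)..1, piFun C w ε y < 0 := by
  obtain ⟨q, hq⟩ : ∃ q, C.K.p = q + 1 := ⟨C.K.p - 1, by omega⟩
  have hq' : C.K.p - 1 = q := by omega
  set m := mass q semi 1 with hm
  obtain ⟨hlo, hhi⟩ := massQ_le q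
  have key : ∀ (Pl : List ℤ) (f : Piece → List ℤ), ctlTest C Pl f = true →
      ((momSum C.K.p 0 1 Pl : ℚ) : ℝ) * m + ((piecesInt C f C.pieces : ℚ) : ℝ) < 0 := by
    intro Pl f ht
    simp only [ctlTest, Bool.and_eq_true, decide_eq_true_eq, hq'] at ht
    obtain ⟨t1, t2⟩ := ht
    have r1 := (Rat.cast_lt (K := ℝ)).2 t1
    have r2 := (Rat.cast_lt (K := ℝ)).2 t2
    simp only [Rat.cast_add, Rat.cast_mul, Rat.cast_zero] at r1 r2
    rcases le_total 0 ((momSum C.K.p 0 1 Pl : ℚ) : ℝ) with hs | hs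
    · linarith [mul_le_mul_of_nonneg_left hhi hs]
    · linarith [mul_le_mul_of_nonpos_left hlo hs]
  set N : ℝ := ctlAt C.K.U w
    (((momSum C.K.p 0 1 C.P0 : ℚ) : ℝ) * m + ((piecesInt C Piece.L0 C.pieces : ℚ) : ℝ))
    (((momSum C.K.p 0 1 C.P1 : ℚ) : ℝ) * m + ((piecesInt C Piece.L1 C.pieces : ℚ) : ℝ))
    (((momSum C.K.p 0 1 C.P2 : ℚ) : ℝ) * m + ((piecesInt C Piece.L2 C.pieces : ℚ) : ℝ)) with hN
  have hN0 : N < 0 := by
    have k0 := key _ _ h0
    have k1 := key _ _ h1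
    have k2 := key _ _ h2
    have hU' : (0 : ℝ) < C.K.U := by exact_mod_cast hU
    refine div_neg_of_neg_of_pos ?_ hU'
    have a0 := hw.1
    have a1 : 0 ≤ 1 - w := sub_nonneg.2 hw.2
    rcases le_total w (1 / 2) with hc | hc
    · nlinarith only [k0, mul_nonpos_of_nonneg_of_nonpos (mul_nonneg a0 a1) k1.le,
        mul_nonpos_of_nonneg_of_nonpos (sq_nonneg w) k2.le, hc,
        mul_neg_of_pos_of_neg (show (0 : ℝ) < (1 - w) ^ 2 by nlinarith) k0]
    · nlinarith only [k2, mul_nonpos_of_nonneg_of_nonpos (mul_nonneg a0 a1) k1.le,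
        mul_nonpos_of_nonneg_of_nonpos (sq_nonneg (1 - w)) k0.le, hc,
        mul_neg_of_pos_of_neg (show (0 : ℝ) < w ^ 2 by nlinarith) k2]
  obtain ⟨K, hK0, hK⟩ := sumP_int (w := w) hU hQ C.pieces h
  refine ⟨-N / (2 * (K + 1)), div_pos (neg_pos.2 hN0) (by positivity), ?_⟩
  set ε := -N / (2 * (K + 1)) with hε
  have he : ε * (K + 1) = -N / 2 := by rw [hε]; field_simp
  have hε0 : 0 < ε := div_pos (neg_pos.2 hN0) (by positivity)
  have hc : ∀ l : List ℤ, Continuous fun y : ℝ => semi y ^ q * ev (y ^ 2) l := fun l =>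
    (semi_continuous.pow q).mul ((ev_continuous l).comp (continuous_pow 2))
  have hd : ∀ (a : ℝ) (l : List ℤ),
      IntervalIntegrable (fun y : ℝ => a * (semi y ^ q * ev (y ^ 2) l)) volume 0 1 :=
    fun a l => ((hc l).intervalIntegrable 0 1).const_mul a
  have hA : (∫ y in (0 : ℝ)..1, semi y ^ (C.K.p - 1) *
      ctlAt C.K.U w (ev (y ^ 2) C.P0) (ev (y ^ 2) C.P1) (ev (y ^ 2) C.P2)) =
      ctlAt C.K.U w (((momSum C.K.p 0 1 C.P0 : ℚ) : ℝ) * m) (((momSum C.K.p 0 1 C.P1 : ℚ) : ℝ) * m)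
        (((momSum C.K.p 0 1 C.P2 : ℚ) : ℝ) * m) := by
    rw [hq', hq, hm, ← momSum_zero, ← momSum_zero, ← momSum_zero]
    simp only [ctlAt]
    rw [← intervalIntegral.integral_const_mul, ← intervalIntegral.integral_const_mul,
      ← intervalIntegral.integral_const_mul,
      ← intervalIntegral.integral_add (hd ((1 - w) ^ 2) C.P0) (hd (2 * w * (1 - w)) C.P1),
      ← intervalIntegral.integral_add ((hd ((1 - w) ^ 2) C.P0).add (hd (2 * w * (1 - w)) C.P1))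
        (hd (w ^ 2) C.P2),
      ← intervalIntegral.integral_div]
    exact intervalIntegral.integral_congr fun y _ => by ring
  have hcont : Continuous fun y : ℝ => semi y ^ (C.K.p - 1) *
      ctlAt C.K.U w (ev (y ^ 2) C.P0) (ev (y ^ 2) C.P1) (ev (y ^ 2) C.P2) := by
    have := semi_continuous
    have := (ev_continuous C.P0).comp (continuous_pow (M := ℝ) 2)
    have := (ev_continuous C.P1).comp (continuous_pow (M := ℝ) 2)
    have := (ev_continuous C.P2).comp (continuous_pow (M := ℝ) 2)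
    unfold ctlAt
    fun_prop
  simp only [piFun]
  rw [intervalIntegral.integral_add (hcont.intervalIntegrable _ _)
    ((sumP_continuous ε _).intervalIntegrable _ _), hA]
  have hsum := hK ε hε0
  have hsplit : N = ctlAt C.K.U w (((momSum C.K.p 0 1 C.P0 : ℚ) : ℝ) * m)
      (((momSum C.K.p 0 1 C.P1 : ℚ) : ℝ) * m) (((momSum C.K.p 0 1 C.P2 : ℚ) : ℝ) * m) +
      ctlAt C.K.U w ((piecesInt C Piece.L0 C.pieces : ℚ) : ℝ)
        ((piecesInt C Piece.L1 C.pieces : ℚ) : ℝ) ((piecesInt C Piece.L2 C.pieces : ℚ) : ℝ) := by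
    simp only [hN, ctlAt]; ring
  nlinarith [hsum, hsplit, he, hK0, hε0]

/-- The pieces cover the half-open interval. -/
theorem cover_mem (hQ : 0 < C.Q) : ∀ (l : List Piece) (Y : ℤ), coverTest C.Q Y l = true → ∀ y : ℝ,
    (Y : ℝ) / C.Q ≤ y → y < 1 → ∃ P ∈ l, y ∈ Ico ((P.Y0 : ℝ) / C.Q) ((P.Y1 : ℝ) / C.Q)
  | [], Y, h, y, h0, h1 => by
    simp only [coverTest, decide_eq_true_eq] at h
    subst h
    have : (C.Q : ℝ) ≠ 0 := by exact_mod_cast hQ.ne'
    rw [div_self this] at h0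
    linarith
  | P :: l, Y, h, y, h0, h1 => by
    simp only [coverTest, Bool.and_eq_true, decide_eq_true_eq] at h
    obtain ⟨rfl, hl⟩ := h
    rcases lt_or_ge y ((P.Y1 : ℝ) / C.Q) with hy | hy
    · exact ⟨P, by simp, h0, hy⟩
    · obtain ⟨R, hR, hyR⟩ := cover_mem hQ l P.Y1 hl y hy h1
      exact ⟨R, by simp [hR], hyR⟩

end Vale.Agent.P237.All.Finite
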