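import Vale.Agent.P237.All.Finite.Constraint

/-!
P237, finitely many dimensions: homogeneity of the majorant and of the constraint products in the
parameters.
-/

noncomputable section

namespace Vale.Agent.P237.All.Transport.Finite

open Vale.Agent.P237.All.Finite (MI RC)

variable (p be z : ℝ) (P : Par) (S : Scal) (t : ℝ)

theorem ea_smul : S.ea z (P.smul t) = t * S.ea z P := by
  cases h : S.aBand <;> simp [Scal.ea, Par.smul, h] <;> ring

theorem eb_smul : S.eb (P.smul t) = t * S.eb P := by
  cases h : S.bBand <;> simp [Scal.eb, Par.smul, h] <;> ring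

theorem em_smul : S.em z (P.smul t) = t ^ 2 * S.em z P := by
  rcases (show S.pick = 0 ∨ S.pick = 1 ∨ S.pick = 2 ∨ (¬S.pick = 0 ∧ ¬S.pick = 1 ∧ ¬S.pick = 2) by omega)
    with h0 | h0 | h0 | ⟨h0, h1, h2⟩
  · simp [Scal.em, h0]
  · simp only [Scal.em, h0, one_ne_zero, if_false, if_true, ea_smul]
    simp only [Par.smul]; ring
  · simp only [Scal.em, h0, OfNat.ofNat_ne_zero, OfNat.ofNat_ne_one, if_false, if_true, eb_smul]
    simp only [Par.smul]; ring
  · simp only [Scal.em, h0, h1, h2, if_false, ea_smul, eb_smul]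
    simp only [Par.smul]; ring

theorem e00_smul : S.e00 p be z (P.smul t) = t ^ 2 * S.e00 p be z P := by
  simp only [Scal.e00, Scal.cm, c00, cd, gterm, em_smul, ea_smul]
  simp only [Par.smul]; ring

theorem e01_smul : S.e01 p be z (P.smul t) = t ^ 2 * S.e01 p be z P := by
  simp only [Scal.e01, Scal.cm, cd, gterm, em_smul, ea_smul]
  simp only [Par.smul]; ring

theorem e02_smul : S.e02 p be z (P.smul t) = t ^ 2 * S.e02 p be z P := by
  simp only [Scal.e02, ct, cdt]
  simp only [Par.smul]; ring

theorem e11_smul : S.e11 be z (P.smul t) = t ^ 2 * S.e11 be z P := by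
  simp only [Scal.e11, Scal.cm, em_smul, ea_smul]
  simp only [Par.smul]; ring

theorem e12_smul : S.e12 p be z (P.smul t) = t ^ 2 * S.e12 p be z P := by
  simp only [Scal.e12, cdt]
  simp only [Par.smul]; ring

theorem e22_smul : S.e22 p be z (P.smul t) = t ^ 2 * S.e22 p be z P := by
  simp only [Scal.e22, ctt, zc]
  simp only [Par.smul]; ring

/-- The constraint products are homogeneous. -/
theorem val_smul (i : MI) (x τ : ℝ) (c : RC) :
    i.val (P.smul t) z { c with a := t * c.a, b := t * c.b } x τ =
      (if i.quad then t ^ 2 else t) * i.val P z c x τ := by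
  cases i <;>
    simp only [MI.val, MI.quad, MI.r0, MI.r1, MI.r2, MI.r3, MI.r4, MI.r5, RC.L, Par.smul,
      Bool.false_eq_true, if_false, if_true] <;> ring

end Vale.Agent.P237.All.Transport.Finite
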