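import Vale.Agent.P237.All.Finite.Checker
import Vale.Agent.P237.All.Finite.Sound.Scale

/-!
P237, finitely many dimensions: what the packed data of a piece and of a leaf represent.
-/

noncomputable section

namespace Vale.Agent.P237.All.Finite

open Transport.Finite (Par Scal)

/-- The value at `w` of a number that is affine in `k`. -/
def lin2 (U : ℤ) (w : ℝ) (a b : ℤ) : ℝ := ((1 - w) * a + w * b) / U

/-- The value at `(z, w)` of a polynomial that is affine in `k`. -/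
def polyAt (U : ℤ) (w z : ℝ) (a b : List ℤ) : ℝ := ((1 - w) * ev z a + w * ev z b) / U

/-- The parameters that change with a leaf, at both ends. -/
structure Aux where
  t0 : ℤ
  t1 : ℤ
  h0 : ℤ
  h1 : ℤ
  p0 : ℤ
  p1 : ℤ

/-- No such parameters. -/
def Aux.zero : Aux := ⟨0, 0, 0, 0, 0, 0⟩

/-- The parameters of a leaf at both ends. -/
def Leaf.aux (L : Leaf) : Aux := ⟨L.ztu0, L.ztu1, L.hp0, L.hp1, L.ep0, L.ep1⟩

/-- The parameters at `(z, w)`, `w` the position of `k` in the cell. -/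
def parHat (C : Cell) (P : Piece) (a : Aux) (z w : ℝ) : Par :=
  { o := 1, g := lin2 C.K.U w C.e0.g C.e1.g, c2 := lin2 C.K.U w C.e0.c2 C.e1.c2
    ell := lin2 C.K.U w C.e0.ell C.e1.ell
    f := polyAt C.K.U w z C.e0.F C.e1.F, fd := polyAt C.K.U w z (dlist C.e0.F) (dlist C.e1.F)
    h := polyAt C.K.U w z C.e0.H C.e1.H, hd := polyAt C.K.U w z (dlist C.e0.H) (dlist C.e1.H)
    al := lin2 C.K.U w P.al0 P.al1, bb := lin2 C.K.U w P.bb0 P.bb1, ztu := lin2 C.K.U w a.t0 a.t1
    L2 := lin2 C.K.U w C.e0.L2 C.e1.L2, lam := lin2 C.K.U w C.e0.lam C.e1.lam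
    eq := lin2 C.K.U w C.e0.eq C.e1.eq, hp := lin2 C.K.U w a.h0 a.h1
    ep := lin2 C.K.U w a.p0 a.p1 }

/-- The squared end of a piece. -/
def zq (C : Cell) (Y : ℤ) : ℝ := ((Y : ℝ) / C.Q) ^ 2

/-- The quadratic of a piece in the form of Bernstein. -/
def quadB (l : List ℤ) (u : ℝ) : ℝ :=
  (l.getD 0 0 : ℤ) * (1 - u) ^ 2 + 2 * (l.getD 1 0 : ℤ) * u * (1 - u) + (l.getD 2 0 : ℤ) * u ^ 2

/-- A quadratic form in `w` from three controls, in units. -/
def ctlAt (U : ℤ) (w a b c : ℝ) : ℝ := ((1 - w) ^ 2 * a + 2 * w * (1 - w) * b + w ^ 2 * c) / U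

/-- The bound on a piece. -/
def piAt (C : Cell) (P : Piece) (z w : ℝ) : ℝ :=
  let u := (z - zq C P.Y0) / (zq C P.Y1 - zq C P.Y0)
  ctlAt C.K.U w (ev z C.P0 + quadB P.L0 u) (ev z C.P1 + quadB P.L1 u) (ev z C.P2 + quadB P.L2 u)

/-- The denominator on a piece. -/
def dX (C : Cell) (X : ℝ) : ℝ := (C.Q : ℝ) * C.Q * (1 + X)

/-- `z` on a piece. -/
def zX (C : Cell) (P : Piece) (X : ℝ) : ℝ :=
  ((P.Y0 : ℝ) * P.Y0 + (P.Y1 : ℝ) * P.Y1 * X) / dX C X

/-- The parameters in `(X, W)`. -/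
def parW (C : Cell) (P : Piece) (a : Aux) (X W : ℝ) : Par :=
  (parHat C P a (zX C P X) (W / (1 + W))).smul (1 + W)

/-- What the header of a cell and a piece guarantee. -/
structure PieceBasic (C : Cell) (P : Piece) : Prop where
  hU : 0 < C.K.U
  hQ : 0 < C.Q
  hN : 1 ≤ C.K.N
  hF0 : C.e0.F.length = C.K.N + 1
  hF1 : C.e1.F.length = C.K.N + 1
  hH0 : C.e0.H.length = C.K.N + 1
  hH1 : C.e1.H.length = C.K.N + 1
  hP0 : C.P0.length = C.K.N + 4
  hP1 : C.P1.length = C.K.N + 4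
  hP2 : C.P2.length = C.K.N + 4
  hY0 : 0 ≤ P.Y0
  hY : P.Y0 < P.Y1

theorem dlist_length : ∀ l : List ℤ, (dlist l).length = l.length - 1
  | [] => rfl
  | _ :: cs => by
    have : ∀ (i : ℕ) (l : List ℤ), (dlistAux i l).length = l.length := by
      intro i l
      induction l generalizing i with
      | nil => rfl
      | cons a as ih => simp [dlistAux, ih]
    simp [dlist, this]

variable {C : Cell} {P : Piece}

theorem dX_pos (h : PieceBasic C P) {X : ℝ} (hX : 0 ≤ X) : 0 < dX C X := by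
  have : (0 : ℝ) < C.Q := by exact_mod_cast h.hQ
  unfold dX; positivity

/-- The frame of a piece. -/
theorem frame_sem (h : PieceBasic C P) :
    (frameOf C (P.Y0 * P.Y0) (P.Y1 * P.Y1) (C.Q * C.Q)).Sem C.B stride C.K.N (dX C) (zX C P) := by
  have hD : Rep C.B stride 0 (PK.lin C.B stride (C.Q * C.Q) (C.Q * C.Q)) fun X _ => dX C X :=
    (Rep.lin _ _).congr fun X W => by simp only [dX]; push_cast; ring
  have hZ : Rep C.B stride 0 (PK.lin C.B stride (P.Y0 * P.Y0) (P.Y1 * P.Y1))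
      fun X _ => dX C X * zX C P X :=
    (Rep.lin _ _).congr' fun X W hX _ => by
      rw [zX, mul_div_cancel₀ _ (dX_pos h hX).ne']; push_cast; ring
  refine ⟨hZ, hD, ((hD.sub hZ).mono (by simp)).congr fun X W => by ring, ?_⟩
  refine ((horner_rep (zf := zX C P) hZ hD (fun X _ => rfl) (C.e0.F.take C.K.N)).1).congr fun X W => ?_
  simp [List.length_take, h.hF0]

theorem lin2_rep {B : ℕ} (U : ℤ) (hU : U ≠ 0) (a b : ℤ) :
    Rep B stride 1 (PK.linW B a b) fun _ W => (U : ℝ) * ((1 + W) * lin2 U (W / (1 + W)) a b) :=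
  (Rep.linW a b).congr' fun X W _ hW => by
    have : (U : ℝ) ≠ 0 := by exact_mod_cast hU
    have : (1 : ℝ) + W ≠ 0 := by positivity
    simp only [lin2]; field_simp; ring

/-- The parameters of a leaf. -/
theorem par_sem (h : PieceBasic C P) (a : Aux) :
    ({ parOf C P with
      ztu := PK.linW C.B a.t0 a.t1, hp := PK.linW C.B a.h0 a.h1, ep := PK.linW C.B a.p0 a.p1 } : IPar).Sem C.B stride C.K.U (parW C P a) where
  ho := (Rep.linW C.K.U C.K.U).congr fun X W => by simp [parW, parHat, Par.smul]; ring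
  hg := lin2_rep _ h.hU.ne' _ _
  hc2 := lin2_rep _ h.hU.ne' _ _
  hell := lin2_rep _ h.hU.ne' _ _
  hal := lin2_rep _ h.hU.ne' _ _
  hbb := lin2_rep _ h.hU.ne' _ _
  hztu := lin2_rep _ h.hU.ne' _ _
  hhp := lin2_rep _ h.hU.ne' _ _
  hep := lin2_rep _ h.hU.ne' _ _

theorem polyAt_rep (h : PieceBasic C P) {n : ℕ} {a b : List ℤ} (ha : a.length = n + 1)
    (hb : b.length = n + 1) {G : Frame} (hG : G.Sem C.B stride C.K.N (dX C) (zX C P)) :
    Rep C.B stride 1 (hornerW C.B G.Z G.D a b) fun X W =>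
      (C.K.U : ℝ) * dX C X ^ n * ((1 + W) * polyAt C.K.U (W / (1 + W)) (zX C P X) a b) :=
  (hornerW_rep hG.hZ hG.hD (fun X _ => rfl) ha hb).congr' fun X W _ hW => by
    have : (C.K.U : ℝ) ≠ 0 := by exact_mod_cast h.hU.ne'
    have : (1 : ℝ) + W ≠ 0 := by positivity
    simp only [polyAt]; field_simp; ring

/-- The packed potential. -/
theorem pots_sem (h : PieceBasic C P) (a : Aux) {G : Frame}
    (hG : G.Sem C.B stride C.K.N (dX C) (zX C P)) :
    (pots C.B G C.e0 C.e1).Sem C.B stride G C.K.N C.K.U (dX C) (parW C P a) := by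
  obtain ⟨n, hn⟩ : ∃ n, C.K.N = n + 1 := ⟨C.K.N - 1, by have := h.hN; omega⟩
  constructor
  · exact (polyAt_rep h h.hF0 h.hF1 hG).congr fun X W => by simp [parW, parHat, Par.smul]
  · refine (((polyAt_rep h (n := n) (by simp [dlist_length, h.hF0, hn])
      (by simp [dlist_length, h.hF1, hn]) hG).mul hG.hD).mono (by simp)).congr fun X W => ?_
    simp only [parW, parHat, Par.smul, hn, pow_succ]; ring
  · exact (polyAt_rep h h.hH0 h.hH1 hG).congr fun X W => by simp [parW, parHat, Par.smul]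
  · refine (((polyAt_rep h (n := n) (by simp [dlist_length, h.hH0, hn])
      (by simp [dlist_length, h.hH1, hn]) hG).mul hG.hD).mono (by simp)).congr fun X W => ?_
    simp only [parW, parHat, Par.smul, hn, pow_succ]; ring

theorem piCtl_rep (h : PieceBasic C P) {G : Frame} (hG : G.Sem C.B stride C.K.N (dX C) (zX C P))
    {Pl : List ℤ} (hl : Pl.length = C.K.N + 4) (l : List ℤ) :
    Rep C.B stride 0 (piCtl C.K G C.B (C.Q * C.Q) Pl (l.getD 0 0) (l.getD 1 0) (l.getD 2 0))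
      fun X _ => (C.K.U : ℝ) ^ 4 * dX C X ^ (C.K.N + 3) *
        (ev (zX C P X) Pl + quadB l ((zX C P X - zq C P.Y0) / (zq C P.Y1 - zq C P.Y0))) := by
  refine (((((horner_rep hG.hZ hG.hD (fun X _ => rfl) Pl).2).add ((hG.hN.mul hG.hD).mul
    (((Rep.lin (l.getD 0 0) (2 * l.getD 1 0)).add
      ((Rep.lin 0 1).mul (Rep.lin 0 (l.getD 2 0)))).smul (C.Q * C.Q * (C.Q * C.Q))))).smul _).mono
    (by simp)).congr' fun X W hX _ => ?_
  have hQ : (C.Q : ℝ) ≠ 0 := by exact_mod_cast h.hQ.ne'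
  have hX1 : (1 : ℝ) + X ≠ 0 := by positivity
  have hY0 : (0 : ℝ) ≤ P.Y0 := by exact_mod_cast h.hY0
  have hY : (P.Y0 : ℝ) < P.Y1 := by exact_mod_cast h.hY
  have hne : (P.Y1 : ℝ) * P.Y1 - P.Y0 * P.Y0 ≠ 0 := by nlinarith
  have eu : (zX C P X - zq C P.Y0) / (zq C P.Y1 - zq C P.Y0) = X / (1 + X) := by
    simp only [zX, zq, dX]
    rw [div_eq_div_iff (fun e => hne (by field_simp at e; linarith)) hX1]
    field_simp; ring
  simp only [hl, show C.K.N + 4 - 1 = C.K.N + 3 from rfl, eu, quadB, pow_succ]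
  simp only [dX]
  push_cast
  field_simp
  ring

/-- The bound of a piece, packed. -/
theorem w_rep (h : PieceBasic C P) (m : Msk) :
    Rep C.B stride 2 (ctx C m P).w fun X W => (C.K.U : ℝ) ^ 5 * dX C X ^ (C.K.N + 3) *
      ((1 + W) ^ 2 * piAt C P (zX C P X) (W / (1 + W))) := by
  have hG := frame_sem h
  simp only [ctx, Frame.strict_eq, IPar.strict_eq]
  refine ((((piCtl_rep h hG h.hP0 P.L0).add ((Rep.linW 0 2).mul (piCtl_rep h hG h.hP1 P.L1))).add
    (((Rep.linW 0 1).mul (Rep.linW 0 1)).mul (piCtl_rep h hG h.hP2 P.L2))).mono (by simp)).congr'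
    fun X W _ hW => ?_
  have : (C.K.U : ℝ) ≠ 0 := by exact_mod_cast h.hU.ne'
  have : (1 : ℝ) + W ≠ 0 := by positivity
  simp only [piAt, ctlAt]
  push_cast
  field_simp
  ring

/-- The parts that do not depend on a leaf. -/
theorem base_ctx_sem (h : PieceBasic C P) {be : ℝ} (hK : C.K.Ok be) (m : Msk) (a : Aux) :
    (ctx C m P).b.Sem C.B stride C.K be (dX C) (zX C P) (parW C P a) := by
  have hb := base_sem hK (frame_sem h) (par_sem h a) (pots_sem h a (frame_sem h))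
  simp only [ctx, Frame.strict_eq, IPar.strict_eq]
  simpa [base] using hb

end Vale.Agent.P237.All.Finite
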