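import Vale.Agent.P237.All.Finite.Sound.Context
import Vale.Agent.P237.All.Finite.Geometry

/-!
P237, finitely many dimensions: the passed integer tests of a leaf as real inequalities.
-/

noncomputable section

namespace Vale.Agent.P237.All.Finite

open Transport.Finite

/-- The Hermite test bounds the two excesses. -/
theorem hermite_sound {p : ℕ} (hp : 2 ≤ p) {U l : ℤ} (hU : 0 < U) {P : Piece} {L : Leaf}
    (h : hermiteTest p U l P L = true) {δ z : ℝ} (hδ : (l : ℝ) / U ≤ δ) (hd : -1 < δ) (hz : z ≤ 1)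
    (hK : 0 ≤ P.Kx → (1 - z) * ((1 + δ) ^ p)⁻¹ ≤ (P.Kx : ℝ) / U) :
    let x := δ - (l : ℝ) / U
    let R1 := (1 + δ) ^ (p + 1) - 1 - ((p : ℝ) + 1) * δ
    let R2 := ((1 + δ) ^ p)⁻¹ - 1 + (p : ℝ) * δ
    (L.q0 : ℝ) / U + (L.q1 : ℝ) / U * x + (L.q2 : ℝ) / U * x ^ 2 ≤ R1 ∧
      (L.v0 : ℝ) / U + (L.v1 : ℝ) / U * x ≤ R1 ∧
      (L.w0 : ℝ) / U + (L.w1 : ℝ) / U * x ≤ R2 ∧
      (1 - z) * R2 ≤ (1 - z) * ((L.u0 : ℝ) / U + (L.u1 : ℝ) / U * x + (L.u2 : ℝ) / U * x ^ 2) +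
        ((if L.crude then P.Kx else 0 : ℤ) : ℝ) / U := by
  intro x R1 R2
  obtain ⟨n, rfl⟩ : ∃ n, p = n + 2 := ⟨p - 2, by omega⟩
  have hU' : (0 : ℝ) < U := by exact_mod_cast hU
  simp only [hermiteTest, Bool.and_eq_true, decide_eq_true_eq, Nat.add_sub_cancel] at h
  obtain ⟨⟨⟨⟨⟨⟨⟨⟨⟨⟨ha, hd0⟩, hc⟩, h0⟩, h2⟩, h1⟩, hv1⟩, hv0⟩, hw1⟩, hw0⟩, hu⟩ := h
  have ca : (0 : ℝ) ≤ (U : ℝ) + l := by exact_mod_cast ha
  have cd0 : (0 : ℝ) < (L.u : ℝ) - l := by exact_mod_cast hd0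
  have cc : (0 : ℝ) < (U : ℝ) + L.v := by exact_mod_cast hc
  have hl : -1 ≤ (l : ℝ) / U := by rw [le_div_iff₀ hU']; linarith
  have hlu : (l : ℝ) / U < (L.u : ℝ) / U := by gcongr; linarith
  have hv : -1 < (L.v : ℝ) / U := by rw [lt_div_iff₀ hU']; linarith
  have e1 : ∀ a : ℝ, 1 + a / U = ((U : ℝ) + a) / U := fun a => by field_simp
  have g0 := (Int.cast_le (R := ℝ)).2 h0
  have g1 := (Int.cast_le (R := ℝ)).2 h1
  have g2 := (Int.cast_le (R := ℝ)).2 h2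
  have g3 := (Int.cast_le (R := ℝ)).2 hv1
  have g4 := (Int.cast_le (R := ℝ)).2 hv0
  have g5 := (Int.cast_le (R := ℝ)).2 hw1
  have g6 := (Int.cast_le (R := ℝ)).2 hw0
  push_cast at g0 g1 g2 g3 g4 g5 g6
  refine ⟨?_, ?_, ?_, ?_⟩
  · refine quad_le_R1 hl hlu hδ ?_ ?_ ?_
    · rw [e1, div_pow]; have k := div_le_div_of_nonneg_right g0 (show (0 : ℝ) ≤ (U : ℝ) ^ (n + 2) * U by positivity)
      refine le_of_eq_of_le ?_ (k.trans_eq ?_) <;> (field_simp; try (push_cast; ring))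
    · rw [e1, e1, div_pow, div_pow, div_pow]; have k := div_le_div_of_nonneg_right g1 (show (0 : ℝ) ≤ (U : ℝ) ^ (n + 2) * U by positivity)
      refine le_of_eq_of_le ?_ (k.trans_eq ?_) <;> (field_simp; try (push_cast; ring))
    · rw [e1, e1, div_pow, div_pow, div_pow]; have k := div_le_div_of_nonneg_right g2 (show (0 : ℝ) ≤ (U : ℝ) ^ (n + 2) * U by positivity)
      refine le_of_eq_of_le ?_ (k.trans_eq ?_) <;> (field_simp; try (push_cast; ring))
  · refine line_le_R1 hl hv.le hδ ?_ ?_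
    · rw [e1, div_pow, div_pow]; have k := div_le_div_of_nonneg_right g4 (show (0 : ℝ) ≤ (U : ℝ) ^ (n + 2) * U by positivity)
      refine le_of_eq_of_le ?_ (k.trans_eq ?_) <;> (field_simp; try (push_cast; ring))
    · rw [e1, div_pow]; have k := div_le_div_of_nonneg_right g3 (show (0 : ℝ) ≤ (U : ℝ) ^ (n + 2) by positivity)
      refine le_of_eq_of_le ?_ (k.trans_eq ?_) <;> (field_simp; try (push_cast; ring))
  · refine line_le_R2 hv hd hδ ?_ ?_
    · rw [e1, div_pow, div_pow]; have k := div_le_div_of_nonneg_right g6 (show (0 : ℝ) ≤ (U : ℝ) * (((U : ℝ) + L.v) ^ (n + 2) * ((U : ℝ) + L.v)) by positivity)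
      refine le_of_eq_of_le ?_ (k.trans_eq ?_) <;> (field_simp; try (push_cast; ring))
    · rw [e1, div_pow]; have k := div_le_div_of_nonneg_right g5 (show (0 : ℝ) ≤ (U : ℝ) * (((U : ℝ) + L.v) ^ (n + 2) * ((U : ℝ) + L.v)) by positivity)
      refine le_of_eq_of_le ?_ (k.trans_eq ?_) <;> (field_simp; try (push_cast; ring))
  · cases hcr : L.crude
    · simp only [hcr, Bool.false_eq_true, if_false, Bool.and_eq_true, decide_eq_true_eq] at hu
      obtain ⟨⟨⟨ha', k0⟩, k2⟩, k1⟩ := hu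
      have hl' : -1 < (l : ℝ) / U := by
        have : (0 : ℝ) < (U : ℝ) + l := by exact_mod_cast ha'
        rw [lt_div_iff₀ hU']; linarith
      simp only [hcr, Bool.false_eq_true, if_false, Int.cast_zero, zero_div, add_zero]
      refine mul_le_mul_of_nonneg_left ?_ (sub_nonneg.2 hz)
      have ha'' : (0 : ℝ) < (U : ℝ) + l := by exact_mod_cast ha'
      have hb' : (0 : ℝ) < (U : ℝ) + L.u := by linarith
      have c0 := (Int.cast_le (R := ℝ)).2 k0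
      have c1 := (Int.cast_le (R := ℝ)).2 k1
      have c2 := (Int.cast_le (R := ℝ)).2 k2
      push_cast at c0 c1 c2
      refine R2_le_quad hl' hlu hδ ?_ ?_ ?_
      · rw [e1, div_pow]; have k := div_le_div_of_nonneg_right c0 (show (0 : ℝ) ≤ U * (((U : ℝ) + l) ^ (n + 2)) by positivity)
        refine le_of_add_le_add_right (a := 1 - ((n + 2 : ℕ) : ℝ) * ((l : ℝ) / U)) ?_
        refine le_of_eq_of_le ?_ (k.trans_eq ?_) <;> (field_simp; try (push_cast; ring))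
      · rw [e1, e1, div_pow, div_pow, div_pow]
        have k := div_le_div_of_nonneg_right c1 (show (0 : ℝ) ≤ (U : ℝ) ^ 2 * (((U : ℝ) + l) ^ (n + 2)) * (((U : ℝ) + L.u) ^ (n + 2) * ((U : ℝ) + L.u)) by positivity)
        refine le_of_eq_of_le ?_ (k.trans_eq ?_) <;> (field_simp; try (push_cast; ring))
      · rw [e1, e1, div_pow, div_pow, div_pow]
        have k := div_le_div_of_nonneg_right c2 (show (0 : ℝ) ≤ (U : ℝ) ^ 3 * (((U : ℝ) + l) ^ (n + 2)) * (((U : ℝ) + L.u) ^ (n + 2) * ((U : ℝ) + L.u)) by positivity)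
        refine le_of_eq_of_le ?_ (k.trans_eq ?_) <;> (field_simp; try (push_cast; ring))
    · simp only [hcr, if_true, Bool.and_eq_true, decide_eq_true_eq] at hu
      obtain ⟨⟨⟨k0, k1⟩, k2⟩, k3⟩ := hu
      simp only [hcr, if_true]
      have c0 := (Int.cast_le (R := ℝ)).2 k0
      have c1 := (Int.cast_le (R := ℝ)).2 k1
      have c2 : (0 : ℝ) ≤ L.u2 := by exact_mod_cast k2
      push_cast at c0 c1
      have hx : 0 ≤ x := sub_nonneg.2 hδ
      have k := hK k3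
      have e : -1 + ((n + 2 : ℕ) : ℝ) * δ ≤
          (L.u0 : ℝ) / U + (L.u1 : ℝ) / U * x + (L.u2 : ℝ) / U * x ^ 2 := by
        have a0 : -1 + ((n + 2 : ℕ) : ℝ) * ((l : ℝ) / U) ≤ (L.u0 : ℝ) / U := by
          rw [le_div_iff₀ hU']; field_simp; push_cast; linarith
        have a1 : ((n + 2 : ℕ) : ℝ) ≤ (L.u1 : ℝ) / U := by
          rw [le_div_iff₀ hU']; push_cast; linarith
        nlinarith [mul_le_mul_of_nonneg_right a1 hx, mul_nonneg (div_nonneg c2 hU'.le) (sq_nonneg x)]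
      have := mul_le_mul_of_nonneg_left e (sub_nonneg.2 hz)
      simp only [R2]
      linarith

/-- The chord test gives the line. -/
theorem line_sound {U : ℤ} (hU : 0 < U) {c : Ctx} {b : Box} {L : Leaf} (h : lineTest U c b L = true)
    (hD : 0 < c.D) {z r lam τ : ℝ} (hz : z ∈ Set.Icc ((c.Z0 : ℝ) / c.D) ((c.Z1 : ℝ) / c.D))
    (hz1 : z < 1) (hz0 : 0 ≤ z) (hτ : (L.ca : ℝ) / U ≤ τ) (hcb : τ ≤ (L.cb : ℝ) / U) (hr : 0 ≤ r)
    (hlam : 0 ≤ lam) (hS : 1 - z * (1 + τ) ^ 2 ≤ lam ^ 2 * (1 - z) * r ^ 2) :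
    (L.c0 : ℝ) / U + (L.sl : ℝ) / U * τ ≤ lam * r := by
  have hU' : (0 : ℝ) < U := by exact_mod_cast hU
  have hD' : (0 : ℝ) < c.D := by exact_mod_cast hD
  simp only [lineTest, Bool.and_eq_true, Bool.or_eq_true, decide_eq_true_eq] at h
  obtain ⟨⟨⟨⟨⟨⟨⟨ha, he⟩, hs⟩, -⟩, h0⟩, h1⟩, h2⟩, h3⟩ := h
  have g0 := (Int.cast_le (R := ℝ)).2 h0
  have g1 := (Int.cast_le (R := ℝ)).2 h1
  have g2 := (Int.cast_le (R := ℝ)).2 h2
  have g3 := (Int.cast_le (R := ℝ)).2 h3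
  push_cast at g0 g1 g2 g3
  have ea : ∀ u : ℤ, (L.c0 : ℝ) / U + (L.sl : ℝ) / U * ((u : ℝ) / U) =
      ((L.c0 * U + L.sl * u : ℤ) : ℝ) / (U * U) := fun u => by push_cast; field_simp
  have hs' : τ ≤ (L.lend : ℝ) / U ∨
      ((L.c0 : ℝ) / U + (L.sl : ℝ) / U * ((L.lend : ℝ) / U) = 0 ∧ (L.sl : ℝ) / U ≤ 0) := by
    rcases hs with h | ⟨h, h'⟩
    · exact Or.inl (hcb.trans (by gcongr))
    · refine Or.inr ⟨by rw [ea, h]; simp, div_nonpos_of_nonpos_of_nonneg ?_ hU'.le⟩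
      exact_mod_cast h'
  refine chord_le (u1 := (L.lend : ℝ) / U) hz hz1 hz0 hτ hr hlam hS hs'
    (by rw [ea]; exact div_nonneg (by exact_mod_cast ha) (by positivity))
    (by rw [ea]; exact div_nonneg (by exact_mod_cast he) (by positivity)) ?_ ?_ ?_ ?_
  · rw [ea]; field_simp; push_cast; ring_nf at g0 ⊢; linarith
  · rw [ea]; field_simp; push_cast; ring_nf at g1 ⊢; linarith
  · rw [ea]; field_simp; push_cast; ring_nf at g2 ⊢; linarith
  · rw [ea]; field_simp; push_cast; ring_nf at g3 ⊢; linarith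

end Vale.Agent.P237.All.Finite
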