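import Vale.Agent.P237.All.Finite.Sound.Tree

/-!
P237, finitely many dimensions: the constants at the ends of a cell bound what `lam` and `c₂` can be.
-/

noncomputable section

open Real Finset

namespace Vale.Agent.P237.All.Finite

theorem exp_le_expUp1 {x : ℝ} (h0 : 0 ≤ x) (h1 : x ≤ 1) :
    exp x ≤ 1 + x + x ^ 2 / 2 + x ^ 3 / 6 + x ^ 4 / 24 + x ^ 5 / 120 + x ^ 6 * 7 / 4320 := by
  refine (Real.exp_bound' h0 h1 (n := 6) (by norm_num)).trans_eq ?_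
  simp [sum_range_succ, Nat.factorial]
  ring

theorem exp_le_expUp {x : ℚ} (h0 : 0 ≤ x) (h1 : x ≤ 4) : exp (x : ℝ) ≤ ((expUp x : ℚ) : ℝ) := by
  have a0 : (0 : ℝ) ≤ (x : ℝ) / 4 := by have : (0 : ℝ) ≤ (x : ℝ) := by exact_mod_cast h0
                                        positivity
  have a1 : (x : ℝ) / 4 ≤ 1 := by
    have : (x : ℝ) ≤ 4 := by exact_mod_cast h1
    linarith
  have e : exp (x : ℝ) = exp ((x : ℝ) / 4) ^ 4 := by rw [← Real.exp_nat_mul]; push_cast; ring_nf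
  rw [e]
  refine (pow_le_pow_left₀ (exp_pos _).le (exp_le_expUp1 a0 a1) 4).trans_eq ?_
  simp only [expUp, expUp1]
  push_cast
  ring

/-- A chord above `exp`. -/
theorem exp_chord {a b w A B : ℝ} (hw : w ∈ Set.Icc (0 : ℝ) 1) (ha : exp a ≤ A) (hb : exp b ≤ B) :
    exp ((1 - w) * a + w * b) ≤ (1 - w) * A + w * B := by
  have := convexOn_exp.2 (Set.mem_univ a) (Set.mem_univ b) (sub_nonneg.2 hw.2) hw.1 (by ring)
  simp only [smul_eq_mul] at this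
  exact this.trans (add_le_add (mul_le_mul_of_nonneg_left ha (sub_nonneg.2 hw.2))
    (mul_le_mul_of_nonneg_left hb hw.1))

/-- What the header test guarantees at an end. -/
structure EndOk (C : Cell) (e : End) (k : ℝ) : Prop where
  hg : 0 ≤ e.g
  hell : 0 ≤ e.ell
  hF : e.F.length = C.K.N + 1
  hH : e.H.length = C.K.N + 1
  hk : 0 ≤ k
  hc2 : (e.c2 : ℝ) / C.K.U ≤ 1 + 2 * k / (((C.K.p : ℝ) + 1) * ((C.K.p : ℝ) + 2))
  hL2 : exp (2 * k / ((C.K.p : ℝ) + 1) ^ 2) ≤ (e.L2 : ℝ) / C.K.U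
  hlam : exp (k / ((C.K.p : ℝ) + 1) ^ 2) ≤ (e.lam : ℝ) / C.K.U
  heq : (e.eps : ℝ) / C.K.U ≤ (e.eq : ℝ) / C.K.U * ((C.K.p : ℝ) + 2)
  heps : exp ((C.K.p : ℝ) * k / ((C.K.p : ℝ) + 1) ^ 2) - 1 ≤ (e.eps : ℝ) / C.K.U

theorem endTest_sound {C : Cell} {e : End} {k : ℚ} (hU : 0 < C.K.U) (h : endTest C e k = true) :
    EndOk C e (k : ℝ) := by
  simp only [endTest, Bool.and_eq_true, decide_eq_true_eq] at h
  obtain ⟨⟨⟨⟨⟨⟨⟨⟨⟨⟨⟨hg, hell⟩, hF⟩, hH⟩, hk⟩, hb2⟩, hbp⟩, hc2⟩, hL2⟩, hlam⟩, heq⟩, heps⟩ := h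
  have hU' : (0 : ℝ) < C.K.U := by exact_mod_cast hU
  set m : ℚ := (C.K.p : ℚ) + 1 with hm
  have hm0 : 0 < m := by positivity
  have hk' : (0 : ℝ) ≤ (k : ℝ) := by exact_mod_cast hk
  have u2 := exp_le_expUp (x := 2 * k / (m * m)) (by positivity)
    ((div_le_iff₀ (by positivity)).2 hb2)
  have u1 := exp_le_expUp (x := k / (m * m)) (by positivity)
    ((div_le_iff₀ (by positivity)).2 (by linarith))
  have up := exp_le_expUp (x := (C.K.p : ℚ) * k / (m * m)) (by positivity)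
    ((div_le_iff₀ (by positivity)).2 hbp)
  have g2 : ((C.K.U : ℝ)) * ((expUp (2 * k / (m * m)) : ℚ) : ℝ) ≤ (e.L2 : ℝ) := by exact_mod_cast hL2
  have g1 : ((C.K.U : ℝ)) * ((expUp (k / (m * m)) : ℚ) : ℝ) ≤ (e.lam : ℝ) := by exact_mod_cast hlam
  have gp : ((C.K.U : ℝ)) * (((expUp ((C.K.p : ℚ) * k / (m * m)) : ℚ) : ℝ) - 1) ≤ (e.eps : ℝ) := by
    exact_mod_cast heps
  have gc : (e.c2 : ℝ) ≤ (C.K.U : ℝ) * (1 + 2 * (k : ℝ) / ((m : ℝ) * ((m : ℝ) + 1))) := by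
    exact_mod_cast hc2
  have ge : (e.eps : ℝ) ≤ (e.eq : ℝ) * ((C.K.p : ℝ) + 2) := by exact_mod_cast heq
  have em : (m : ℝ) = (C.K.p : ℝ) + 1 := by simp [hm]
  push_cast at u2 u1 up
  rw [em] at u2 u1 up gc
  refine ⟨hg, hell, hF, hH, hk', ?_, ?_, ?_, ?_, ?_⟩
  · rw [div_le_iff₀ hU']
    refine gc.trans_eq ?_
    ring
  · rw [le_div_iff₀ hU', pow_two]; nlinarith only [u2, g2, hU']
  · rw [le_div_iff₀ hU', pow_two]; nlinarith only [u1, g1, hU']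
  · rw [div_mul_eq_mul_div]; gcongr
  · rw [le_div_iff₀ hU', pow_two]; nlinarith only [up, gp, hU']

variable {C : Cell} {kA kB k w lam : ℝ}

/-- The bounds at the position `w` of the cell. -/
theorem ends_sound (hU : 0 < C.K.U) (h0 : EndOk C C.e0 kA) (h1 : EndOk C C.e1 kB)
    (hw : w ∈ Set.Icc (0 : ℝ) 1) (hk : k = (1 - w) * kA + w * kB) (hlam : 1 ≤ lam)
    (hpow : lam ^ (C.K.p + 1) ≤ exp (k / ((C.K.p : ℝ) + 1))) :
    lam ^ 2 ≤ lin2 C.K.U w C.e0.L2 C.e1.L2 ∧ lam ≤ lin2 C.K.U w C.e0.lam C.e1.lam ∧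
      lam ^ C.K.p - 1 ≤ lin2 C.K.U w C.e0.eps C.e1.eps ∧
      lin2 C.K.U w C.e0.c2 C.e1.c2 ≤ 1 + 2 * k / (((C.K.p : ℝ) + 1) * ((C.K.p : ℝ) + 2)) ∧
      0 ≤ lin2 C.K.U w C.e0.g C.e1.g ∧ 0 ≤ lin2 C.K.U w C.e0.ell C.e1.ell ∧
      lin2 C.K.U w C.e0.eps C.e1.eps ≤ lin2 C.K.U w C.e0.eq C.e1.eq * ((C.K.p : ℝ) + 2) := by
  have hU' : (0 : ℝ) < C.K.U := by exact_mod_cast hU
  have hw1 : 0 ≤ 1 - w := sub_nonneg.2 hw.2
  set m := (C.K.p : ℝ) + 1 with hm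
  have hm0 : 0 < m := by positivity
  have hl : lam ≤ exp (k / m ^ 2) := by
    refine (pow_le_pow_iff_left₀ (by linarith) (exp_pos _).le (Nat.succ_ne_zero C.K.p)).1 ?_
    rw [← Real.exp_nat_mul]
    refine hpow.trans_eq ?_
    congr 1
    push_cast
    rw [hm]; field_simp
  have hl0 : 0 ≤ lam := by linarith
  have e : ∀ a b : ℤ, lin2 C.K.U w a b = (1 - w) * ((a : ℝ) / C.K.U) + w * ((b : ℝ) / C.K.U) :=
    fun a b => by simp only [lin2]; ring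
  refine ⟨?_, ?_, ?_, ?_, ?_, ?_, ?_⟩
  · rw [e]
    refine le_trans ?_ (exp_chord hw h0.hL2 h1.hL2)
    refine (pow_le_pow_left₀ hl0 hl 2).trans_eq ?_
    rw [← Real.exp_nat_mul, hk]; congr 1; push_cast; ring
  · rw [e]
    refine le_trans ?_ (exp_chord hw h0.hlam h1.hlam)
    refine hl.trans_eq ?_
    rw [hk]; congr 1; ring
  · rw [e]
    have := exp_chord (A := (C.e0.eps : ℝ) / C.K.U + 1) (B := (C.e1.eps : ℝ) / C.K.U + 1)
      (a := (C.K.p : ℝ) * kA / m ^ 2) (b := (C.K.p : ℝ) * kB / m ^ 2) hw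
      (by linarith [h0.heps]) (by linarith [h1.heps])
    have h2 : lam ^ C.K.p ≤ exp ((1 - w) * ((C.K.p : ℝ) * kA / m ^ 2) + w * ((C.K.p : ℝ) * kB / m ^ 2)) := by
      refine (pow_le_pow_left₀ hl0 hl C.K.p).trans_eq ?_
      rw [← Real.exp_nat_mul, hk]; congr 1; ring
    linarith [h2.trans this]
  · rw [e]
    refine (add_le_add (mul_le_mul_of_nonneg_left h0.hc2 hw1)
      (mul_le_mul_of_nonneg_left h1.hc2 hw.1)).trans_eq ?_
    rw [hk]; ring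
  · have a : (0 : ℝ) ≤ C.e0.g := by exact_mod_cast h0.hg
    have b : (0 : ℝ) ≤ C.e1.g := by exact_mod_cast h1.hg
    exact div_nonneg (add_nonneg (mul_nonneg hw1 a) (mul_nonneg hw.1 b)) hU'.le
  · have a : (0 : ℝ) ≤ C.e0.ell := by exact_mod_cast h0.hell
    have b : (0 : ℝ) ≤ C.e1.ell := by exact_mod_cast h1.hell
    exact div_nonneg (add_nonneg (mul_nonneg hw1 a) (mul_nonneg hw.1 b)) hU'.le
  · rw [e, e]
    refine (add_le_add (mul_le_mul_of_nonneg_left h0.heq hw1)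
      (mul_le_mul_of_nonneg_left h1.heq hw.1)).trans_eq ?_
    ring

end Vale.Agent.P237.All.Finite
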