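import Vale.Agent.P237.All.Finite.Sound.Mus
import Vale.Agent.P237.All.Finite.Sound.Data

/-!
P237, finitely many dimensions: a passed leaf bounds the bracket on its box.
-/

noncomputable section

namespace Vale.Agent.P237.All.Finite

open Transport.Finite (Par Scal)

/-- The numeric constants of the constraints of a leaf. -/
def leafRC (U : ℤ) (b : Box) (L : Leaf) (T : Scal) (X z : ℝ) (Q : Par) : RC :=
  ⟨(((b.h.getD b.l) - b.l : ℤ) : ℝ) / U, ((U + b.l : ℤ) : ℝ) / U, (L.c0 : ℝ) / U, (L.sl : ℝ) / U,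
    T.ea z Q, T.eb Q, X / (1 + X)⟩

/-- A point that the certificate has to bound, in a piece, with what its hypotheses leave. -/
structure Pt (C : Cell) (P : Piece) (z w δ τ : ℝ) : Prop where
  hz : z ∈ Set.Ico (zq C P.Y0) (zq C P.Y1)
  hz0 : 0 ≤ z
  hz1 : z < 1
  hw : w ∈ Set.Ico (0 : ℝ) 1
  hδ : -1 < δ
  hτ : -1 < τ
  hback : P.back = true → -lin2 C.K.U w P.al0 P.al1 * (1 - z) ≤ τ
  hbb : τ ≤ lin2 C.K.U w P.bb0 P.bb1
  hone : 0 ≤ 1 - z - 2 * z * τ - z * τ ^ 2
  hL2 : 1 - z * (1 + τ) ^ 2 ≤ lin2 C.K.U w C.e0.L2 C.e1.L2 * (1 - z) * (1 + δ) ^ 2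
  hlam : 1 - z * (1 + τ) ^ 2 ≤ lin2 C.K.U w C.e0.lam C.e1.lam ^ 2 * (1 - z) * (1 + δ) ^ 2
  hlam0 : 0 ≤ lin2 C.K.U w C.e0.lam C.e1.lam
  hzb : 0 ≤ lin2 C.K.U w C.e0.eq C.e1.eq * (1 - z) + z * τ
  hrho : 0 < P.rho → (P.rho : ℝ) / C.K.U ≤ 1 + δ
  hK : 0 ≤ P.Kx → (1 - z) * ((1 + δ) ^ C.K.p)⁻¹ ≤ (P.Kx : ℝ) / C.K.U

/-- Membership of a box. -/
def InBox (C : Cell) (P : Piece) (b : Box) (z w δ τ : ℝ) : Prop :=
  (if b.aBand then -lin2 C.K.U w P.al0 P.al1 * (1 - z) ≤ τ else (b.ta : ℝ) / C.K.U ≤ τ) ∧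
    (if b.bBand then τ ≤ lin2 C.K.U w P.bb0 P.bb1 else τ ≤ (b.tb : ℝ) / C.K.U) ∧
    (b.l : ℝ) / C.K.U ≤ δ ∧ ∀ h : ℤ, b.h = some h → δ ≤ (h : ℝ) / C.K.U

/-- What a leaf has to prove. -/
def Bounded (C : Cell) (P : Piece) (be z w δ τ : ℝ) : Prop :=
  (1 - z) * Transport.Finite.bracket C.K.p be z (parHat C P Aux.zero z w) δ τ
      ((1 + δ) ^ (C.K.p + 1) - 1 - ((C.K.p : ℝ) + 1) * δ)
      (((1 + δ) ^ C.K.p)⁻¹ - 1 + (C.K.p : ℝ) * δ) ≤ piAt C P z w

theorem lin2_le {U : ℤ} (hU : 0 < U) {w : ℝ} (hw : w ∈ Set.Icc (0 : ℝ) 1) {a b c : ℤ} (ha : a ≤ c)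
    (hb : b ≤ c) : lin2 U w a b ≤ (c : ℝ) / U := by
  have ha' : (a : ℝ) ≤ c := by exact_mod_cast ha
  have hb' : (b : ℝ) ≤ c := by exact_mod_cast hb
  refine div_le_div_of_nonneg_right ?_ (by exact_mod_cast hU.le)
  nlinarith [hw.1, hw.2]

variable {C : Cell} {P : Piece} {be z w δ τ : ℝ} {b : Box} {L : Leaf}

/-- A numeric bound above the forward band. -/
theorem cap_sound (hU : 0 < C.K.U) (hQ : 0 < C.Q) (hpt : Pt C P z w δ τ) (m : Msk) {cb : ℤ}
    (h0 : P.bb0 ≤ cb) (h1 : capTest C.K.U (ctx C m P) P.bb1 cb = true) (hb : τ ≤ lin2 C.K.U w P.bb0 P.bb1) :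
    τ ≤ (cb : ℝ) / C.K.U := by
  simp only [capTest, ctx, Frame.strict_eq, IPar.strict_eq, Bool.or_eq_true, Bool.and_eq_true,
    decide_eq_true_eq] at h1
  rcases h1 with h1 | ⟨hn, h1⟩
  · exact hb.trans (lin2_le hU (Set.Ico_subset_Icc_self hpt.hw) h0 h1)
  have hU' : (0 : ℝ) < C.K.U := by exact_mod_cast hU
  have hQ' : (0 : ℝ) < C.Q := by exact_mod_cast hQ
  have hn' : (0 : ℝ) ≤ (C.K.U : ℝ) + cb := by exact_mod_cast hn
  have q := (Int.cast_le (R := ℝ)).2 h1
  push_cast at q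
  have hz0 : (P.Y0 : ℝ) * P.Y0 ≤ z * ((C.Q : ℝ) * C.Q) := by
    have := hpt.hz.1
    rw [zq, div_pow, div_le_iff₀ (by positivity)] at this
    linarith [this]
  by_contra hlt
  push Not at hlt
  have h2 : (C.K.U : ℝ) + cb < C.K.U * (1 + τ) := by
    rw [div_lt_iff₀ hU'] at hlt; linarith
  have h3 : ((C.K.U : ℝ) + cb) * (C.K.U + cb) < C.K.U * C.K.U * ((1 + τ) * (1 + τ)) := by
    nlinarith only [h2, hn']
  have hD : (0 : ℝ) < (C.Q : ℝ) * C.Q := by positivity
  have hpos : (0 : ℝ) < (P.Y0 : ℝ) * P.Y0 := by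
    rcases (mul_self_nonneg (P.Y0 : ℝ)).lt_or_eq with h | h
    · exact h
    · rw [← h] at q; nlinarith only [q, mul_pos (mul_pos hU' hU') hD]
  nlinarith only [q, mul_lt_mul_of_pos_left h3 hpos,
    mul_le_mul_of_nonneg_right hz0 (mul_nonneg (mul_nonneg hU'.le hU'.le) (mul_self_nonneg (1 + τ))),
    mul_nonneg (mul_nonneg (mul_nonneg hU'.le hU'.le) hD.le) hpt.hone]

theorem lowEnd_sound (hU : 0 < C.K.U) (hQ : 0 < C.Q) (hbe : 1 ≤ be) (hK : C.K.Ok be) (hpt : Pt C P z w δ τ)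
    (m : Msk) (h : lowEndTest C.K P (ctx C m P) b L = true)
    (ha : if b.aBand then -lin2 C.K.U w P.al0 P.al1 * (1 - z) ≤ τ else (b.ta : ℝ) / C.K.U ≤ τ) :
    let T := (iscal b P L).real C.K.U
    let Q := parHat C P L.aux z w
    T.ea z Q ≤ τ ∧ (L.ca : ℝ) / C.K.U ≤ τ ∧ 0 ≤ T.cm be z Q := by
  intro T Q
  have hU' : (0 : ℝ) < C.K.U := by exact_mod_cast hU
  have hD : (0 : ℝ) < (C.Q : ℝ) * C.Q := by
    have : (0 : ℝ) < C.Q := by exact_mod_cast hQ
    positivity
  obtain ⟨-, e2, e3, -⟩ := hK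
  have hz0 : ((P.Y0 * P.Y0 : ℤ) : ℝ) ≤ z * ((C.Q : ℝ) * C.Q) := by
    have := hpt.hz.1
    rw [zq, div_pow, div_le_iff₀ (by positivity)] at this
    push_cast; linarith [this]
  have hz1 : z * ((C.Q : ℝ) * C.Q) ≤ ((P.Y1 * P.Y1 : ℤ) : ℝ) := by
    have := hpt.hz.2
    rw [zq, div_pow, lt_div_iff₀ (by positivity)] at this
    push_cast; linarith [this]
  simp only [lowEndTest, ctx, Frame.strict_eq, IPar.strict_eq] at h
  cases hb : b.aBand
  · simp only [hb, Bool.false_eq_true, if_false, Bool.and_eq_true, decide_eq_true_eq] at h ha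
    obtain ⟨⟨h0, h1⟩, h2⟩ := h
    have g0 : (L.ca : ℝ) ≤ b.ta := by exact_mod_cast h0
    have g1 := (Int.cast_le (R := ℝ)).2 h1
    have g2 := (Int.cast_le (R := ℝ)).2 h2
    push_cast at g1 g2 hz0 hz1
    refine ⟨?_, le_trans (by gcongr) ha, ?_⟩
    · simpa [T, Q, Scal.ea, IScal.real, iscal, parHat, hb] using ha
    · have eT : T.cm be z Q = Transport.Finite.cc be * (1 - z) +
          Transport.Finite.cc be * (be - 1) * z * ((b.ta : ℝ) / C.K.U) := by
        simp [T, Q, Scal.cm, Scal.ea, IScal.real, iscal, parHat, hb]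
      have key : 0 ≤ (C.K.cc : ℝ) * ((C.Q : ℝ) * C.Q * (1 - z)) * C.K.U +
          (C.K.ccb : ℝ) * (z * ((C.Q : ℝ) * C.Q)) * b.ta := by
        rcases le_total ((C.K.ccb : ℝ) * b.ta) ((C.K.cc : ℝ) * C.K.U) with hc | hc
        · nlinarith only [mul_le_mul_of_nonneg_left hz1 (sub_nonneg.2 hc), g2]
        · nlinarith only [mul_le_mul_of_nonneg_left hz0 (sub_nonneg.2 hc), g1]
      rw [e2, e3] at key
      rw [eT]
      have : 0 ≤ (T.cm be z Q) * ((C.Q : ℝ) * C.Q * C.K.U * C.K.U) := by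
        rw [eT]; field_simp; nlinarith only [key]
      rw [← eT]
      exact nonneg_of_mul_nonneg_left this (by positivity)
  · simp only [hb, if_true, Bool.and_eq_true, decide_eq_true_eq] at h ha
    obtain ⟨⟨⟨⟨⟨⟨-, hA0⟩, hA1⟩, h0⟩, h1⟩, h2⟩, h3⟩ := h
    have g0 := (Int.cast_le (R := ℝ)).2 h0
    have g1 := (Int.cast_le (R := ℝ)).2 h1
    have g2 := (Int.cast_le (R := ℝ)).2 h2
    have g3 := (Int.cast_le (R := ℝ)).2 h3
    push_cast at g0 g1 g2 g3 hz0 hz1
    have hw0 := hpt.hw.1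
    have hw1 : 0 ≤ 1 - w := by linarith [hpt.hw.2]
    have hal : 0 ≤ (1 - w) * (P.al0 : ℝ) + w * P.al1 :=
      add_nonneg (mul_nonneg hw1 (by exact_mod_cast hA0)) (mul_nonneg hw0 (by exact_mod_cast hA1))
    refine ⟨?_, ?_, ?_⟩
    · simpa [T, Q, Scal.ea, IScal.real, iscal, parHat, hb] using ha
    · refine le_trans ?_ ha
      have hs : 0 ≤ 1 - z := by linarith [hpt.hz1]
      have key : (L.ca : ℝ) * ((C.Q : ℝ) * C.Q) ≤
          -((1 - w) * P.al0 + w * P.al1) * (((C.Q : ℝ) * C.Q) - (P.Y0 : ℝ) * P.Y0) := by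
        nlinarith only [mul_le_mul_of_nonneg_left g0 hw1, mul_le_mul_of_nonneg_left g1 hw0]
      rw [lin2, div_le_iff₀ hU']
      field_simp
      refine le_of_mul_le_mul_right ?_ hD
      nlinarith only [mul_le_mul_of_nonneg_left hz0 hal, key]
    · have eT : T.cm be z Q = Transport.Finite.cc be * (1 - z) +
          Transport.Finite.cc be * (be - 1) * z * (-lin2 C.K.U w P.al0 P.al1 * (1 - z)) := by
        simp [T, Q, Scal.cm, Scal.ea, IScal.real, iscal, parHat, hb]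
      have key : (C.K.ccb : ℝ) * ((P.Y1 : ℝ) * P.Y1) * ((1 - w) * P.al0 + w * P.al1) ≤
          (C.K.cc : ℝ) * C.K.U * ((C.Q : ℝ) * C.Q) := by
        nlinarith only [mul_le_mul_of_nonneg_left g2 hw1, mul_le_mul_of_nonneg_left g3 hw0]
      have key2 : (C.K.ccb : ℝ) * (z * ((C.Q : ℝ) * C.Q)) * ((1 - w) * P.al0 + w * P.al1) ≤
          (C.K.cc : ℝ) * C.K.U * ((C.Q : ℝ) * C.Q) := by
        have hccb : 0 ≤ (C.K.ccb : ℝ) := by
          rw [e3]
          refine mul_nonneg (mul_nonneg ?_ (by linarith)) hU'.le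
          unfold Transport.Finite.cc; linarith
        nlinarith only [mul_le_mul_of_nonneg_left hz1 (mul_nonneg hccb hal), key]
      rw [e2, e3] at key2
      have : 0 ≤ (T.cm be z Q) * ((C.Q : ℝ) * C.Q * C.K.U * C.K.U) := by
        rw [eT, lin2]; field_simp
        nlinarith only [mul_le_mul_of_nonneg_left key2 (by linarith [hpt.hz1] : 0 ≤ 1 - z)]
      exact nonneg_of_mul_nonneg_left this (by positivity)

theorem em_sound (hp : PieceBasic C P) (hB : 1 ≤ C.B) (hK : C.K.Ok be) (hw : w ∈ Set.Ico (0 : ℝ) 1)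
    (hz : z ∈ Set.Ico (zq C P.Y0) (zq C P.Y1)) (hpick : L.pick ≤ 3)
    (h : pickTest C.K (ctx C (Msk.of C.B C.K.N) P) b P L = true)
    (ha : ((iscal b P L).real C.K.U).ea z (parHat C P L.aux z w) ≤ τ)
    (hb : τ ≤ ((iscal b P L).real C.K.U).eb (parHat C P L.aux z w)) :
    0 ≤ ((iscal b P L).real C.K.U).em z (parHat C P L.aux z w) ∧
      (parHat C P L.aux z w).f + 2 * (parHat C P L.aux z w).h * τ ≤
        ((iscal b P L).real C.K.U).em z (parHat C P L.aux z w) := by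
  set X := (z - zq C P.Y0) / (zq C P.Y1 - z) with hXd
  set W := w / (1 - w) with hWd
  have h1w : 0 < 1 - w := by linarith [hw.2]
  have hX : 0 ≤ X := div_nonneg (sub_nonneg.2 hz.1) (sub_nonneg.2 hz.2.le)
  have hW : 0 ≤ W := div_nonneg hw.1 h1w.le
  have hne : zq C P.Y1 - z ≠ 0 := (sub_pos.2 hz.2).ne'
  have eW : W / (1 + W) = w := by rw [hWd]; field_simp; ring
  have eX : zX C P X = z := by
    have hQ : (C.Q : ℝ) ≠ 0 := by exact_mod_cast hp.hQ.ne'
    have hX1 : 1 + X ≠ 0 := by positivity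
    rw [zX, dX, div_eq_iff (by positivity)]
    have : (z - zq C P.Y0) = X * (zq C P.Y1 - z) := by rw [hXd, div_mul_cancel₀ _ hne]
    simp only [zq] at this
    field_simp at this
    linarith [this]
  have hU : (C.K.U : ℝ) ≠ 0 := by exact_mod_cast hp.hU.ne'
  have hU0 : (0 : ℝ) < C.K.U := by exact_mod_cast hp.hU
  have hd := dX_pos hp hX
  set m := Msk.of C.B C.K.N with hm
  have hbase := base_ctx_sem hp hK m L.aux
  have hG := frame_sem hp
  have eG : (ctx C m P).G = frameOf C (P.Y0 * P.Y0) (P.Y1 * P.Y1) (C.Q * C.Q) := by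
    simp [ctx, Frame.strict_eq, IPar.strict_eq]
  have eI : (ctx C m P).I = parOf C P := by simp [ctx, Frame.strict_eq, IPar.strict_eq]
  have em' : (ctx C m P).m = m := by simp [ctx, Frame.strict_eq, IPar.strict_eq]
  have hI := par_sem hp L.aux
  set Q := parHat C P L.aux z w with hQd
  have eP : parW C P L.aux X W = Q.smul (1 + W) := by simp only [parW, eX, eW, hQd]
  have ht : 0 < 1 + W := by linarith
  have eL : leafPar (ctx C m P) L = { parOf C P with
      ztu := PK.linW C.B L.aux.t0 L.aux.t1, hp := PK.linW C.B L.aux.h0 L.aux.h1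
      ep := PK.linW C.B L.aux.p0 L.aux.p1 } := by
    rw [leafPar, eI, em', hm]; rfl
  have hemS : ∀ S : IScal, Rep C.B stride 2 (emP C.K (ctx C m P).G (leafPar (ctx C m P) L) S (ctx C m P).b)
      fun X W => (C.K.U : ℝ) ^ 3 * dX C X ^ (C.K.N + 1) *
        (S.real C.K.U).em (zX C P X) (parW C P L.aux X W) := by
    intro S
    have := emP_sem (S := S) hU (eG ▸ hG) hI hbase
    rw [eL]; exact this
  have posEm : ∀ (S : IScal) (k : ℤ),
      (ctx C m P).m.pos ((emP C.K (ctx C m P).G (leafPar (ctx C m P) L) S (ctx C m P).b).smul k) = true →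
      0 < (k : ℝ) * (S.real C.K.U).em z Q := by
    intro S k hk
    rw [em'] at hk
    have := Rep.pos (D := stride * (3 * (C.K.N + 3)) + 6) hB (by norm_num [stride]) ((hemS S).smul k)
      hk hX hW
    simp only [eX, eP, Transport.Finite.em_smul] at this
    have hc : 0 < (C.K.U : ℝ) ^ 3 * dX C X ^ (C.K.N + 1) * (1 + W) ^ 2 := by positivity
    exact pos_of_mul_pos_right (by linarith : 0 < ((C.K.U : ℝ) ^ 3 * dX C X ^ (C.K.N + 1) *
      (1 + W) ^ 2) * ((k : ℝ) * (S.real C.K.U).em z Q)) hc.le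
  have eS : ∀ n, ((({ iscal b P L with pick := n } : IScal)).real C.K.U).ea z Q =
      ((iscal b P L).real C.K.U).ea z Q ∧
      ((({ iscal b P L with pick := n } : IScal)).real C.K.U).eb Q =
      ((iscal b P L).real C.K.U).eb Q := fun n => ⟨rfl, rfl⟩
  have ho : Q.o = 1 := rfl
  simp only [pickTest] at h
  have hpk : ((iscal b P L).real (C.K.U : ℝ)).pick = L.pick := rfl
  have eR : ∀ S : IScal, S.pick ≤ 2 → emP C.K (ctx C m P).G (ctx C m P).I S (ctx C m P).b =
      emP C.K (ctx C m P).G (leafPar (ctx C m P) L) S (ctx C m P).b := fun S hS => by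
    have : S.pick = 0 ∨ S.pick = 1 ∨ S.pick = 2 := by omega
    rcases this with e | e | e <;> simp [emP, e, leafPar, eaP, ebP]
  have ePick : ∀ n, ((iscal b P L).pick = n) ↔ L.pick = n := fun n => Iff.rfl
  obtain h0 | h0 | h0 | h0 : L.pick = 0 ∨ L.pick = 3 ∨ L.pick = 1 ∨ L.pick = 2 := by omega
  · simp only [h0, if_true, Bool.and_eq_true] at h
    rw [eR _ (by norm_num), eR _ (by norm_num)] at h
    have p1 := posEm _ _ h.1
    have p2 := posEm _ _ h.2
    have q1 : ((({ iscal b P L with pick := 1 } : IScal)).real C.K.U).em z Q =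
        Q.f + 2 * Q.h * ((iscal b P L).real C.K.U).ea z Q := by
      rw [← (eS 1).1]; simp [Scal.em, IScal.real, ho]
    have q2 : ((({ iscal b P L with pick := 2 } : IScal)).real C.K.U).em z Q =
        Q.f + 2 * Q.h * ((iscal b P L).real C.K.U).eb Q := by
      rw [← (eS 2).2]; simp [Scal.em, IScal.real, ho]
    rw [q1] at p1
    rw [q2] at p2
    push_cast at p1 p2
    refine ⟨by simp [Scal.em, hpk, h0], ?_⟩
    simp only [Scal.em, hpk, h0, if_true]
    rcases le_total 0 Q.h with hh | hh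
    · nlinarith only [mul_le_mul_of_nonneg_left hb hh, p2]
    · nlinarith only [mul_le_mul_of_nonpos_left ha hh, p1]
  · simp only [h0, OfNat.ofNat_ne_zero, if_false, if_true, Bool.and_eq_true, decide_eq_true_eq] at h
    obtain ⟨⟨⟨⟨⟨n0, n1⟩, n2⟩, n3⟩, hh⟩, hem⟩ := h
    rw [em'] at hh hem
    have p1 := Rep.pos (D := stride * (3 * (C.K.N + 3)) + 6) hB (by norm_num [stride])
      (hemS (iscal b P L)) hem hX hW
    simp only [eX, eP, Transport.Finite.em_smul] at p1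
    have hc : 0 < (C.K.U : ℝ) ^ 3 * dX C X ^ (C.K.N + 1) := by positivity
    have e1 := pos_of_mul_pos_right (pos_of_mul_pos_right p1 hc.le) (sq_nonneg _)
    refine ⟨e1.le, ?_⟩
    have p2 := Rep.pos (D := stride * (3 * (C.K.N + 3)) + 6) hB (by norm_num [stride])
      (((((eG ▸ hG).hN.mul (show Rep C.B stride 1 (leafPar (ctx C m P) L).hp
        fun X W => (C.K.U : ℝ) * (parW C P L.aux X W).hp by rw [eL]; exact hI.hhp)).smul 2).sub hbase.hh2).mono
        (show _ ≤ 2 by simp)) hh hX hW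
    simp only [eX, eP, Par.smul] at p2
    push_cast at p2
    have hc2 : 0 < (C.K.U : ℝ) * dX C X ^ C.K.N * (1 + W) := by positivity
    have hhp : Q.h ≤ Q.hp := by
      by_contra hn
      push Not at hn
      nlinarith only [mul_pos hc2 (sub_pos.2 hn), p2]
    have hU' : (0 : ℝ) < C.K.U := by exact_mod_cast hp.hU
    have hhp0 : 0 ≤ Q.hp := by
      have : (0 : ℝ) ≤ L.hp0 := by exact_mod_cast n0
      have : (0 : ℝ) ≤ L.hp1 := by exact_mod_cast n1
      have := hw.1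
      simp only [hQd, parHat, lin2, Leaf.aux]
      positivity
    have hep0 : 0 ≤ Q.ep := by
      have : (0 : ℝ) ≤ L.ep0 := by exact_mod_cast n2
      have : (0 : ℝ) ≤ L.ep1 := by exact_mod_cast n3
      have := hw.1
      simp only [hQd, parHat, lin2, Leaf.aux]
      positivity
    simp only [Scal.em, hpk, h0, ho, OfNat.ofNat_ne_zero, OfNat.ofNat_ne_one, if_false,
      show (3 : ℕ) ≠ 2 by norm_num, one_mul]
    nlinarith only [mul_le_mul_of_nonneg_right hhp (sub_nonneg.2 ha),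
      mul_le_mul_of_nonneg_left hb hhp0, hep0]
  all_goals
    have hne0 : L.pick ≠ 0 := by omega
    have hne3 : L.pick ≠ 3 := by omega
    simp only [hne0, hne3, if_false, Bool.and_eq_true] at h
    rw [eR _ (by show L.pick ≤ 2; omega)] at h
    rw [em'] at h
    have p1 := Rep.pos (D := stride * (3 * (C.K.N + 3)) + 6) hB (by norm_num [stride])
      (hemS (iscal b P L)) h.1 hX hW
    have p2 := Rep.pos (D := stride * (3 * (C.K.N + 3)) + 6) hB (by norm_num [stride])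
      (hbase.hh2.smul _) h.2 hX hW
    simp only [eX, eP, Transport.Finite.em_smul] at p1
    have hc : 0 < (C.K.U : ℝ) ^ 3 * dX C X ^ (C.K.N + 1) := by positivity
    have e1 := pos_of_mul_pos_right p1 hc.le
    have e2 := pos_of_mul_pos_right e1 (sq_nonneg _)
    refine ⟨e2.le, ?_⟩
    simp only [eX, eP, Par.smul, h0] at p2
    push_cast at p2
    have hc2 : 0 < (C.K.U : ℝ) * dX C X ^ C.K.N * (1 + W) := by positivity
    simp only [Scal.em, hpk, h0, ho, one_ne_zero, if_false, if_true, show (2 : ℕ) ≠ 0 by norm_num,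
      show (2 : ℕ) ≠ 1 by norm_num, one_mul]
  · have : Q.h < 0 := by
      by_contra hh
      push Not at hh
      nlinarith only [mul_nonneg hc2.le hh, p2]
    nlinarith only [mul_le_mul_of_nonpos_left ha this.le]
  · have : 0 < Q.h := by
      by_contra hh
      push Not at hh
      nlinarith only [mul_nonpos_of_nonneg_of_nonpos hc2.le hh, p2]
    nlinarith only [mul_le_mul_of_nonneg_left hb this.le]

end Vale.Agent.P237.All.Finite
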