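import Vale.Agent.P237.All.Finite.Sound.Leaf

/-!
P237, finitely many dimensions: the main soundness statement of a leaf.
-/

noncomputable section

namespace Vale.Agent.P237.All.Finite

open Transport.Finite (Par Scal)

variable {C : Cell} {P : Piece} {be z w δ τ : ℝ} {b : Box} {L : Leaf}

theorem zt_sound (hU : 0 < C.K.U) (hK : C.K.Ok be) (hw : w ∈ Set.Icc (0 : ℝ) 1)
    (h : ztTest C.K C.e0 C.e1 L = true) (hca : (L.ca : ℝ) / C.K.U ≤ τ)
    (hcb : τ ≤ (L.cb : ℝ) / C.K.U) :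
    let T := (iscal b P L).real C.K.U
    let Q := parHat C P L.aux z w
    (Transport.Finite.zc C.K.p be Q - Transport.Finite.cc be * be * T.v1) * τ ^ 2 ≤
      Q.ztu * (T.xA * τ + T.xB) := by
  intro T Q
  have hU' : (0 : ℝ) < C.K.U := by exact_mod_cast hU
  obtain ⟨-, -, -, e4, -, -, -, e8⟩ := hK
  simp only [ztTest, Bool.and_eq_true, Bool.or_eq_true, decide_eq_true_eq] at h
  obtain ⟨⟨h0, h1⟩, hs⟩ := h
  have g0 := (Int.cast_le (R := ℝ)).2 h0
  have g1 := (Int.cast_le (R := ℝ)).2 h1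
  push_cast at g0 g1
  rw [e4, e8] at g0 g1
  have hle : Transport.Finite.zc C.K.p be Q - Transport.Finite.cc be * be * T.v1 ≤ Q.ztu := by
    simp only [T, Q, parHat, Leaf.aux, IScal.real, iscal, Transport.Finite.zc, lin2]
    field_simp
    refine le_of_mul_le_mul_right ?_ hU'
    nlinarith only [mul_le_mul_of_nonneg_left g0 (sub_nonneg.2 hw.2),
      mul_le_mul_of_nonneg_left g1 hw.1]
  refine (mul_le_mul_of_nonneg_right hle (sq_nonneg τ)).trans ?_
  have ez : Q.ztu = ((1 - w) * L.ztu0 + w * L.ztu1) / C.K.U := rfl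
  have eA : T.xA = (L.xA : ℝ) / C.K.U := rfl
  have eB : T.xB = (L.xB : ℝ) / C.K.U := rfl
  rcases hs with ⟨⟨n0, n1⟩, n2⟩ | ⟨⟨⟨n0, n1⟩, n2⟩, n3⟩
  · have a0 : (L.ztu0 : ℝ) ≤ 0 := by exact_mod_cast n0
    have a1 : (L.ztu1 : ℝ) ≤ 0 := by exact_mod_cast n1
    have a2 := (Int.cast_le (R := ℝ)).2 n2
    push_cast at a2
    refine mul_le_mul_of_nonpos_left ?_ ?_
    · rw [eA, eB]
      have : (L.xA : ℝ) / C.K.U * ((L.xA : ℝ) / C.K.U) + 4 * ((L.xB : ℝ) / C.K.U) ≤ 0 := by
        field_simp; linarith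
      nlinarith only [sq_nonneg (τ - (L.xA : ℝ) / C.K.U / 2), this]
    · rw [ez]
      exact div_nonpos_of_nonpos_of_nonneg (by nlinarith only [hw.1, hw.2, a0, a1]) hU'.le
  · have a0 : (0 : ℝ) ≤ L.ztu0 := by exact_mod_cast n0
    have a1 : (0 : ℝ) ≤ L.ztu1 := by exact_mod_cast n1
    have a2 := (Int.cast_le (R := ℝ)).2 n3
    push_cast at a2
    have a3 : (L.xA : ℝ) = L.ca + L.cb := by exact_mod_cast n2
    refine mul_le_mul_of_nonneg_left ?_ ?_
    · rw [eA, eB, a3]
      have : -((L.ca : ℝ) / C.K.U * ((L.cb : ℝ) / C.K.U)) ≤ (L.xB : ℝ) / C.K.U := by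
        field_simp; linarith
      rw [add_div]
      nlinarith only [mul_nonneg (sub_nonneg.2 hca) (sub_nonneg.2 hcb), this]
    · rw [ez]
      exact div_nonneg (by nlinarith only [hw.1, hw.2, a0, a1]) hU'.le

theorem mus_nonneg {P : Piece} {b : Box} {ok : Bool} : ∀ {l : List (MI × ℤ × ℤ)},
    musTest P b ok l = true → ∀ a ∈ l, 0 ≤ a.2.1 ∧ 0 ≤ a.2.2 ∧ (a.1.quad = true → a.2.2 = 0) ∧
      (a.1.needsH = true → b.h.isSome = true) ∧ (a.1.needsBack = true → P.back = true) ∧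
      (a.1.needsLine = true → ok = true)
  | [], _ => by simp
  | (i, m0, m1) :: l, h => by
    simp only [musTest, Bool.and_eq_true, decide_eq_true_eq] at h
    obtain ⟨⟨⟨⟨⟨⟨h0, h1⟩, h2⟩, h3⟩, h4⟩, h5⟩, hl⟩ := h
    simp only [List.mem_cons, forall_eq_or_imp]
    refine ⟨⟨h0, h1, fun e => ?_, fun e => ?_, fun e => ?_, fun e => ?_⟩, mus_nonneg hl⟩
    · simpa [e] using h2
    · simpa [e] using h3
    · simpa [e] using h4
    · simpa [e] using h5

/-- A passed leaf bounds the bracket. -/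
theorem leaf_sound (hp : PieceBasic C P) (hB : 1 ≤ C.B) (hp3 : 3 ≤ C.K.p) (hbe : 1 ≤ be)
    (hK : C.K.Ok be) (hpt : Pt C P z w δ τ) (hbox : InBox C P b z w δ τ)
    (h : leafTest C.K C.e0 C.e1 P (ctx C (Msk.of C.B C.K.N) P) b L = true) :
    Bounded C P be z w δ τ := by
  simp only [leafTest, Six.strict_eq, Bool.and_eq_true, decide_eq_true_eq] at h
  obtain ⟨⟨⟨⟨⟨⟨⟨⟨hpick, -⟩, hlow⟩, hup⟩, hmus⟩, hher⟩, hzt⟩, hpk⟩, hpd⟩ := h
  obtain ⟨hbA, hbB, hbl, hbh⟩ := hbox
  obtain ⟨hz, hw, hU⟩ : z ∈ Set.Ico (zq C P.Y0) (zq C P.Y1) ∧ w ∈ Set.Ico (0 : ℝ) 1 ∧ 0 < C.K.U :=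
    ⟨hpt.hz, hpt.hw, hp.hU⟩
  have hU' : (0 : ℝ) < C.K.U := by exact_mod_cast hU
  set m := Msk.of C.B C.K.N with hm
  set S := iscal b P L with hS
  set T := S.real (C.K.U : ℝ) with hT
  set Q := parHat C P L.aux z w with hQd
  obtain ⟨hea, hca, hcm⟩ := lowEnd_sound hU hp.hQ hbe hK hpt m hlow hbA
  have heb : τ ≤ T.eb Q ∧ τ ≤ (L.cb : ℝ) / C.K.U := by
    cases hbb : b.bBand
    · simp only [hbb, Bool.false_eq_true, if_false, decide_eq_true_eq] at hup hbB
      refine ⟨?_, hbB.trans (by gcongr)⟩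
      simpa [T, S, Q, Scal.eb, IScal.real, iscal, parHat, hbb] using hbB
    · simp only [hbb, if_true, Bool.and_eq_true, decide_eq_true_eq] at hup hbB
      refine ⟨?_, cap_sound hU hp.hQ hpt m hup.1 hup.2 hbB⟩
      simpa [T, S, Q, Scal.eb, IScal.real, iscal, parHat, hbb] using hbB
  obtain ⟨hq, hv, hw2, hu⟩ := hermite_sound (by omega) hU hher hbl hpt.hδ hpt.hz1.le hpt.hK
  obtain ⟨hem0, hem⟩ := em_sound hp hB hK hw hz hpick hpk hea heb.1
  have hzt' := zt_sound (z := z) (b := b) (P := P) hU hK (Set.Ico_subset_Icc_self hw) hzt hca heb.2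
  have hmaj := Transport.Finite.bracket_le (p := (C.K.p : ℝ)) (be := be) (z := z) (P := Q) (S := T)
    (R1 := (1 + δ) ^ (C.K.p + 1) - 1 - ((C.K.p : ℝ) + 1) * δ)
    (R2 := ((1 + δ) ^ C.K.p)⁻¹ - 1 + (C.K.p : ℝ) * δ)
    rfl hpt.hz0 hpt.hz1.le hbe hbl hea hcm hq hv hu hw2 hem0 hem hzt'
  -- the packed side
  set X := (z - zq C P.Y0) / (zq C P.Y1 - z) with hXd
  set W := w / (1 - w) with hWd
  have h1w : 0 < 1 - w := by linarith [hw.2]
  have hX : 0 ≤ X := div_nonneg (sub_nonneg.2 hz.1) (sub_nonneg.2 hz.2.le)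
  have hW : 0 ≤ W := div_nonneg hw.1 h1w.le
  have hne : zq C P.Y1 - z ≠ 0 := (sub_pos.2 hz.2).ne'
  have eW : W / (1 + W) = w := by rw [hWd]; field_simp; ring
  have eX : zX C P X = z := by
    have hQ : (C.Q : ℝ) ≠ 0 := by exact_mod_cast hp.hQ.ne'
    have hX1 : 1 + X ≠ 0 := by positivity
    rw [zX, dX, div_eq_iff (by positivity)]
    have : (z - zq C P.Y0) = X * (zq C P.Y1 - z) := by rw [hXd, div_mul_cancel₀ _ hne]
    simp only [zq] at this
    field_simp at this
    linarith [this]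
  have hd := dX_pos hp hX
  have hG := frame_sem hp
  have eG : (ctx C m P).G = frameOf C (P.Y0 * P.Y0) (P.Y1 * P.Y1) (C.Q * C.Q) := by
    simp [ctx, Frame.strict_eq, IPar.strict_eq]
  have eI : (ctx C m P).I = parOf C P := by simp [ctx, Frame.strict_eq, IPar.strict_eq]
  have em' : (ctx C m P).m = m := by simp [ctx, Frame.strict_eq, IPar.strict_eq]
  have hmB : m.B = C.B := rfl
  have hI : (leafPar (ctx C m P) L).Sem C.B stride C.K.U (parW C P L.aux) := by
    simp only [leafPar, eI, em', hmB]; exact par_sem hp L.aux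
  have hbase := base_ctx_sem hp hK m L.aux
  have hUne : (C.K.U : ℝ) ≠ 0 := hU'.ne'
  obtain ⟨M0, M1, M2, M3, M4, M5⟩ := major_sem (S := S) hUne hK (eG ▸ hG) hI hbase
  have eP : parW C P L.aux X W = Q.smul (1 + W) := by simp only [parW, eX, eW, hQd]
  set cf : ℝ → ℝ → RC := fun X W => leafRC C.K.U b L T X (zX C P X) (parW C P L.aux X W)
  have hgc : (gcOf C.K.U C.K (ctx C m P) b L S).Sem C.B stride (dX C) (zX C P)
      (parW C P L.aux) cf := by
    have hA := eaP_sem (S := S) (eG ▸ hG) hI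
    have hB' := ebP_sem (S := S) hUne (eG ▸ hG) hI
    simp only [leafPar, eI, em', hmB] at hA hB'
    have hDU : Rep C.B stride 0 (PK.lin C.B stride 0 (C.Q * C.Q))
        fun X _ => ((0 : ℤ) : ℝ) + ((C.Q * C.Q : ℤ) : ℝ) * X := Rep.lin _ _
    have hu : ∀ X W : ℝ, 0 ≤ X → ((0 : ℤ) : ℝ) + ((C.Q * C.Q : ℤ) : ℝ) * X = dX C X * (X / (1 + X)) :=
      fun X _ hX => by
        have : (1 : ℝ) + X ≠ 0 := by positivity
        simp only [dX]; push_cast; field_simp; ring
    refine ⟨⟨rfl, rfl⟩, fun X W => ?_, ?_, ?_, ?_, ?_, ?_, ?_, ?_, ?_, ?_, ?_, ?_, ?_, ?_, ?_, ?_, ?_, ?_⟩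
    · simp only [gcOf, cf, leafRC]
      push_cast
      refine ⟨?_, ?_, ?_⟩ <;> field_simp
    all_goals simp only [gcOf, eG, eI]
    · exact hG.hD
    · simp only [ctx, Frame.strict_eq, IPar.strict_eq]
      exact (hG.hD.mul hG.hD).congr fun X W => by ring
    · simp only [ctx, Frame.strict_eq, IPar.strict_eq]
      exact (hG.hS.mul hG.hD).congr fun X W => by ring
    · simp only [ctx, Frame.strict_eq, IPar.strict_eq]
      exact (hG.hZ.mul hG.hD).congr fun X W => by ring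
    · simp only [ctx, Frame.strict_eq, IPar.strict_eq, hmB]
      exact hDU.congr' fun X W hX _ => by simp only [cf, leafRC]; exact hu X W hX
    · simp only [ctx, Frame.strict_eq, IPar.strict_eq, hmB]
      exact (hG.hD.mul hDU).congr' fun X W hX _ => by
        simp only [cf, leafRC]; linear_combination dX C X * hu X W hX
    · simp only [ctx, Frame.strict_eq, IPar.strict_eq, hmB]
      exact (hG.hS.mul hDU).congr' fun X W hX _ => by
        simp only [cf, leafRC]; linear_combination (dX C X * (1 - zX C P X)) * hu X W hX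
    · simp only [ctx, Frame.strict_eq, IPar.strict_eq, hmB]
      exact (hG.hZ.mul hDU).congr' fun X W hX _ => by
        simp only [cf, leafRC]; linear_combination (dX C X * zX C P X) * hu X W hX
    · exact (par_sem hp Aux.zero).ho
    · exact (par_sem hp Aux.zero).hal
    · exact (par_sem hp Aux.zero).hbb
    · exact lin2_rep _ hp.hU.ne' _ _
    · exact lin2_rep _ hp.hU.ne' _ _
    · exact lin2_rep _ hp.hU.ne' _ _
    · simpa [eaP, cf, leafRC, hT, eG] using hA
    · simpa [ebP, cf, leafRC, hT, eG] using hB'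
    · refine ((((lin2_rep _ hp.hU.ne' C.e0.lam C.e1.lam).smul (C.K.U + b.l)).sub
        ((par_sem hp Aux.zero).ho.smul L.c0)).mono (by simp)).congr fun X W => ?_
      simp only [cf, leafRC, RC.L, parW, parHat, Par.smul]
      push_cast
      field_simp
  obtain ⟨E0, E1, E2, E3, E4, E5⟩ := accMus_rep hgc hU.ne' L.mus
  rw [six, IScal.strict_eq, Six.strict_eq, ← hS] at hpd
  have hGS : Rep C.B stride 0 (ctx C m P).G.S fun X _ => dX C X * (1 - zX C P X) := eG ▸ hG.hS
  have hGN : Rep C.B stride 0 (ctx C m P).G.DN fun X _ => dX C X ^ C.K.N := eG ▸ hG.hN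
  have hwr := w_rep hp m
  rw [em'] at hpd
  set U5 := (C.K.U : ℝ) ^ 5
  set dN := dX C X ^ (C.K.N + 2)
  set x := δ - (b.l : ℝ) / C.K.U with hx
  have hxl : T.l = (b.l : ℝ) / C.K.U := rfl
  set sm := sumMu (C.K.U : ℝ) W (MI.val (Q.smul (1 + W)) z
    (leafRC C.K.U b L T X z (Q.smul (1 + W))) x τ) L.mus with hsm
  have main : dX C X * (1 - z) * (U5 * dN * ((1 + W) ^ 2 * (T.e00 C.K.p be z Q + T.e01 C.K.p be z Q * x +
      T.e02 C.K.p be z Q * τ + T.e11 be z Q * x ^ 2 + T.e12 C.K.p be z Q * (x * τ) +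
      T.e22 C.K.p be z Q * τ ^ 2) + sm)) ≤
      U5 * dX C X ^ (C.K.N + 3) * ((1 + W) ^ 2 * piAt C P z w) := by
    have hN : dN = dX C X ^ C.K.N * dX C X ^ 2 := by rw [← pow_add]
    cases hmL : L.mus with
    | nil =>
      rw [hmL] at hpd
      simp only at hpd
      have := pdTest_sound hB hGS hwr M0 M1 M2 M3 M4 M5 hpd hX hW x τ
      simp only [eX, eP, eW, Transport.Finite.e00_smul, Transport.Finite.e01_smul,
        Transport.Finite.e02_smul, Transport.Finite.e11_smul, Transport.Finite.e12_smul,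
        Transport.Finite.e22_smul] at this
      simp only [hsm, hmL, sumMu]
      linarith
    | cons a l =>
      rw [hmL] at hpd
      simp only [Six.strict_eq, ← hmL] at hpd
      have := pdTest_sound hB hGS hwr ((M0.add (hGN.mul E0)).mono (by simp))
        ((M1.add (hGN.mul E1)).mono (by simp)) ((M2.add (hGN.mul E2)).mono (by simp))
        ((M3.add (hGN.mul E3)).mono (by simp)) ((M4.add (hGN.mul E4)).mono (by simp))
        ((M5.add (hGN.mul E5)).mono (by simp)) hpd hX hW x τ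
      simp only [eX, eP, eW, cf, Transport.Finite.e00_smul, Transport.Finite.e01_smul,
        Transport.Finite.e02_smul, Transport.Finite.e11_smul, Transport.Finite.e12_smul,
        Transport.Finite.e22_smul] at this
      rw [hsm, ← sumMu_val, hN]
      rw [show dX C X ^ (C.K.N + 2) = dX C X ^ C.K.N * dX C X ^ 2 by rw [← pow_add]] at this
      simp only [gcOf] at this
      linarith
  have hsm0 : 0 ≤ sm := by
    refine sumMu_nonneg _ fun a ha => ?_
    obtain ⟨p0, p1, pq, pH, pB, pL⟩ := mus_nonneg hmus a ha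
    have q0 : (0 : ℝ) ≤ a.2.1 := by exact_mod_cast p0
    have q1 : (0 : ℝ) ≤ a.2.2 := by exact_mod_cast p1
    refine ⟨?_, ?_⟩
    · obtain ⟨i, m0, m1⟩ := a
      simp only [muVal]
      split <;> positivity
    · have ec : leafRC C.K.U b L T X z (Q.smul (1 + W)) =
          { leafRC C.K.U b L T X z Q with
            a := (1 + W) * (leafRC C.K.U b L T X z Q).a
            b := (1 + W) * (leafRC C.K.U b L T X z Q).b } := by
        simp [leafRC, Transport.Finite.ea_smul, Transport.Finite.eb_smul]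
      rw [ec, Transport.Finite.val_smul]
      refine mul_nonneg (by split <;> positivity) ?_
      refine MI.val_nonneg a.1 rfl hpt.hz0 (sub_nonneg.2 hbl) (fun e => ?_) hea heb.1 hpt.hone ?_
        (fun e => ?_) (fun e => hpt.hback (pB e)) hpt.hbb hpt.hzb ⟨by simp only [leafRC]; positivity,
          (div_le_one (by positivity : (0 : ℝ) < 1 + X)).2 (by linarith)⟩
      · obtain ⟨hh, eh⟩ := Option.isSome_iff_exists.1 (pH e)
        have := hbh hh eh
        simp only [leafRC, eh, Option.getD_some, hx]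
        push_cast; rw [sub_div]; linarith
      · have := hpt.hL2
        simp only [leafRC, Q, parHat, hx]
        push_cast
        rw [show (((C.K.U : ℝ) + b.l) / C.K.U + (δ - (b.l : ℝ) / C.K.U)) = 1 + δ by field_simp; ring]
        nlinarith only [this]
      · have hD : 0 < (ctx C m P).D := by
          simp only [ctx, Frame.strict_eq, IPar.strict_eq]; exact mul_pos hp.hQ hp.hQ
        have := line_sound hU (pL e) hD (z := z) (r := 1 + δ) (lam := lin2 C.K.U w C.e0.lam C.e1.lam)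
          ⟨by simpa [ctx, Frame.strict_eq, IPar.strict_eq, zq, pow_two, div_mul_div_comm] using hz.1,
            by simpa [ctx, Frame.strict_eq, IPar.strict_eq, zq, pow_two, div_mul_div_comm] using hz.2.le⟩
          hpt.hz1 hpt.hz0 hca heb.2 (by linarith [hpt.hδ]) hpt.hlam0 hpt.hlam
        simp only [leafRC, Q, parHat, hx]
        push_cast
        rw [show (((C.K.U : ℝ) + b.l) / C.K.U + (δ - (b.l : ℝ) / C.K.U)) = 1 + δ by field_simp; ring]
        linarith
  have hc : 0 < U5 * dX C X ^ (C.K.N + 3) := by positivity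
  have hW2 : 0 < (1 + W) ^ 2 := by positivity
  have hs : 0 ≤ 1 - z := by linarith [hpt.hz1]
  have hz' : dX C X * dN = dX C X ^ (C.K.N + 3) := by simp only [dN]; ring
  unfold Bounded
  have hb0 : Transport.Finite.bracket C.K.p be z (parHat C P Aux.zero z w) δ τ
      ((1 + δ) ^ (C.K.p + 1) - 1 - ((C.K.p : ℝ) + 1) * δ)
      (((1 + δ) ^ C.K.p)⁻¹ - 1 + (C.K.p : ℝ) * δ) = Transport.Finite.bracket C.K.p be z Q δ τ
      ((1 + δ) ^ (C.K.p + 1) - 1 - ((C.K.p : ℝ) + 1) * δ)
      (((1 + δ) ^ C.K.p)⁻¹ - 1 + (C.K.p : ℝ) * δ) := rfl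
  rw [hb0]
  rw [hxl] at hmaj
  refine le_trans (mul_le_mul_of_nonneg_left hmaj hs) ?_
  refine le_of_mul_le_mul_left ?_ (mul_pos hc hW2)
  have main2 := main
  rw [show ∀ a b : ℝ, dX C X * a * (U5 * dN * b) = U5 * (dX C X * dN) * a * b from fun a b => by ring,
    hz'] at main2
  nlinarith only [main2, mul_nonneg (mul_nonneg hc.le hs) hsm0]

end Vale.Agent.P237.All.Finite
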