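import Vale.Agent.P237.All.Finite.Sound.Context

/-!
P237, finitely many dimensions: the packed sum of the products with their multipliers, and the
positivity test of a leaf.
-/

noncomputable section

namespace Vale.Agent.P237.All.Finite

open Transport.Finite (Par Scal)

/-- The multiplier in `W`. -/
def muVal (U : ℝ) (W : ℝ) : MI × ℤ × ℤ → ℝ
  | (i, m0, m1) => if i.quad then (m0 : ℝ) / U else ((m0 : ℝ) + m1 * W) / U

/-- The weighted sum over the list. -/
def sumMu (U W : ℝ) (r : MI → ℝ) : List (MI × ℤ × ℤ) → ℝ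
  | [] => 0
  | a :: l => sumMu U W r l + muVal U W a * r a.1

variable {B : ℕ} {C : GC} {d z : ℝ → ℝ} {P : ℝ → ℝ → Par} {c : ℝ → ℝ → RC}

theorem accMus_rep (hC : C.Sem B stride d z P c) (hU : C.U ≠ 0) : ∀ l : List (MI × ℤ × ℤ),
    let E := accMus B C l
    let f := fun (r : Par → ℝ → RC → MI → ℝ) X W =>
      (C.U : ℝ) ^ 5 * d X ^ 2 * sumMu C.U W (r (P X W) (z X) (c X W)) l
    Rep B stride 2 E.e00 (f MI.r0) ∧ Rep B stride 2 E.e01 (f MI.r1) ∧
    Rep B stride 2 E.e02 (f MI.r2) ∧ Rep B stride 2 E.e11 (f MI.r3) ∧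
    Rep B stride 2 E.e12 (f MI.r4) ∧ Rep B stride 2 E.e22 (f MI.r5)
  | [] => by
    refine ⟨?_, ?_, ?_, ?_, ?_, ?_⟩ <;>
      exact ((Rep.const 0).mono (by simp)).congr fun X W => by simp [sumMu]
  | (i, m0, m1) :: l => by
    obtain ⟨h0, h1, h2, h3, h4, h5⟩ := accMus_rep hC hU l
    have hU' : (C.U : ℝ) ≠ 0 := by exact_mod_cast hU
    have key : ∃ j, j + (if i.quad then 2 else 1) ≤ 2 ∧
        Rep B stride j (if i.quad then PK.const m0 else PK.linW B m0 m1)
          fun _ W => (C.U : ℝ) * muVal C.U W (i, m0, m1) := by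
      cases hq : i.quad <;> simp only [muVal, hq, Bool.false_eq_true, if_false, if_true]
      · exact ⟨1, le_rfl, (Rep.linW m0 m1).congr fun X W => by field_simp⟩
      · exact ⟨0, le_rfl, (Rep.const m0).congr fun X W => by field_simp⟩
    obtain ⟨j, hj, hm⟩ := key
    simp only [accMus, Six.strict_eq, PK.strict_eq]
    exact ⟨(MI.acc0_rep hC i hm hj h0).congr fun X W => by simp only [sumMu]; ring,
      (MI.acc1_rep hC i hm hj h1).congr fun X W => by simp only [sumMu]; ring,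
      (MI.acc2_rep hC i hm hj h2).congr fun X W => by simp only [sumMu]; ring,
      (MI.acc3_rep hC i hm hj h3).congr fun X W => by simp only [sumMu]; ring,
      (MI.acc4_rep hC i hm hj h4).congr fun X W => by simp only [sumMu]; ring,
      (MI.acc5_rep hC i hm hj h5).congr fun X W => by simp only [sumMu]; ring⟩

theorem sumMu_val (U W : ℝ) (Q : Par) (z x τ : ℝ) (c : RC) : ∀ l : List (MI × ℤ × ℤ),
    sumMu U W (MI.r0 Q z c) l + sumMu U W (MI.r1 Q z c) l * x + sumMu U W (MI.r2 Q z c) l * τ +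
      sumMu U W (MI.r3 Q z c) l * x ^ 2 + sumMu U W (MI.r4 Q z c) l * (x * τ) +
      sumMu U W (MI.r5 Q z c) l * τ ^ 2 = sumMu U W (MI.val Q z c x τ) l
  | [] => by simp [sumMu]
  | a :: l => by
    simp only [sumMu, ← sumMu_val U W Q z x τ c l, MI.val]
    ring

theorem sumMu_nonneg {U W : ℝ} {r : MI → ℝ} : ∀ l : List (MI × ℤ × ℤ),
    (∀ a ∈ l, 0 ≤ muVal U W a ∧ 0 ≤ r a.1) → 0 ≤ sumMu U W r l
  | [], _ => le_rfl
  | a :: l, h => add_nonneg (sumMu_nonneg l fun b hb => h b (by simp [hb]))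
      (mul_nonneg (h a (by simp)).1 (h a (by simp)).2)

/-- A passed test of the minors bounds the quadratic. -/
theorem pdTest_sound {B D : ℕ} (hB : 1 ≤ B) {S w : PK} {E : Six} {fs fw f0 f1 f2 f3 f4 f5 : ℝ → ℝ → ℝ}
    (hS : Rep B stride 0 S fs) (hw : Rep B stride 2 w fw) (h0 : Rep B stride 2 E.e00 f0)
    (h1 : Rep B stride 2 E.e01 f1) (h2 : Rep B stride 2 E.e02 f2) (h3 : Rep B stride 2 E.e11 f3)
    (h4 : Rep B stride 2 E.e12 f4) (h5 : Rep B stride 2 E.e22 f5)
    (h : pdTest ⟨B, mask B D, 2 ^ (B * (D + 1))⟩ S w E = true) {X W : ℝ} (hX : 0 ≤ X) (hW : 0 ≤ W)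
    (x τ : ℝ) :
    fs X W * (f0 X W + f1 X W * x + f2 X W * τ + f3 X W * x ^ 2 + f4 X W * (x * τ) +
      f5 X W * τ ^ 2) ≤ fw X W := by
  simp only [pdTest, PK.strict_eq, Msk.pos, Bool.and_eq_true] at h
  obtain ⟨p22, ps2, pdt⟩ := h
  have m22 := ((hS.mul h5).smul (-2)).norm
  have m11 := ((hS.mul h3).smul (-2)).norm
  have m12 := ((hS.mul h4).smul (-1)).norm
  have m01 := ((hS.mul h1).smul (-1)).norm
  have m02 := ((hS.mul h2).smul (-1)).norm
  have m00 := ((hw.sub (hS.mul h0)).smul 2).norm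
  have s2 := ((m22.mul m11).sub (m12.mul m12)).norm
  have dt := ((m00.mul s2).sub (m01.mul ((m01.mul m22).sub (m12.mul m02)).norm)).add
    (m02.mul ((m01.mul m12).sub (m11.mul m02)).norm)
  have a1 := Rep.pos hB (by norm_num [stride]) m22 p22 hX hW
  have a2 := Rep.pos hB (by norm_num [stride]) s2 ps2 hX hW
  have a3 := Rep.pos hB (by norm_num [stride]) dt pdt hX hW
  push_cast at a1 a2 a3
  have := quad_nonneg (m00 := 2 * (fw X W - fs X W * f0 X W)) (m01 := -(fs X W * f1 X W))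
    (m02 := -(fs X W * f2 X W)) (m11 := -2 * (fs X W * f3 X W)) (m12 := -(fs X W * f4 X W))
    (m22 := -2 * (fs X W * f5 X W)) (by linarith) (by linarith) (by linarith) x τ
  linarith

end Vale.Agent.P237.All.Finite
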