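import Vale.Agent.P237.All.Finite.Sound.Ends

/-!
P237, finitely many dimensions: the hypotheses of a certificate give a point of a piece with what its
test guarantees.
-/

noncomputable section

open MeasureTheory Set Real intervalIntegral

namespace Vale.Agent.P237.All.Finite

open Transport Transport.Finite

variable {U Q Y0 Y1 b n : ℤ}

theorem sig_sound {p : ℕ} (hp : p ≠ 0) (hU : 0 < U) (hQ : 0 < Q) (hn : 0 < n) (hY : 0 ≤ Y1)
    (hb : 0 ≤ b) : ∀ (l : List ℤ) (i : ℕ), sigTest U Q Y1 b n i l = true → ∀ j : Fin l.length, ∀ u : ℝ,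
      u ≤ ((i : ℝ) + (j : ℕ) + 1) * ((b : ℝ) / U / n) → -1 ≤ u →
      ((l[j] : ℤ) : ℝ) ^ p / (U : ℝ) ^ p ≤ semi ((Y1 : ℝ) / Q * (1 + u)) ^ p := by
  intro l
  induction l with
  | nil => intro i _ j; exact absurd j.2 (by simp)
  | cons s l ih =>
    intro i h j u hu hu0
    simp only [sigTest, Bool.and_eq_true, Bool.or_eq_true, decide_eq_true_eq] at h
    obtain ⟨hs, hl⟩ := h
    refine Fin.cases (motive := fun j => u ≤ ((i : ℝ) + (j : ℕ) + 1) * ((b : ℝ) / U / n) →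
      (((s :: l)[j] : ℤ) : ℝ) ^ p / (U : ℝ) ^ p ≤ semi ((Y1 : ℝ) / Q * (1 + u)) ^ p) ?_ ?_ j hu
    · intro hu
      simp only [Fin.val_zero, Nat.cast_zero, add_zero] at hu
      have hU' : (0 : ℝ) < U := by exact_mod_cast hU
      have hQ' : (0 : ℝ) < Q := by exact_mod_cast hQ
      have hn' : (0 : ℝ) < n := by exact_mod_cast hn
      rcases hs with rfl | ⟨hs0, hs⟩
      · simp only [Fin.getElem_fin, Fin.val_zero, List.getElem_cons_zero, Int.cast_zero,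
          zero_pow hp, zero_div]
        exact pow_nonneg (Real.sqrt_nonneg _) _
      · simp only [Fin.getElem_fin, Fin.val_zero, List.getElem_cons_zero]
        rw [← div_pow]
        refine pow_le_pow_left₀ (div_nonneg (by exact_mod_cast hs0) hU'.le) ?_ p
        have g := (Int.cast_le (R := ℝ)).2 hs
        push_cast at g
        have hY' : (0 : ℝ) ≤ Y1 := by exact_mod_cast hY
        have hW : (0 : ℝ) < (Q : ℝ) * U * n := by positivity
        have k := div_le_div_of_nonneg_right g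
          (show (0 : ℝ) ≤ (U : ℝ) * U * (((Q : ℝ) * U * n) * ((Q : ℝ) * U * n)) by positivity)
        have k1 : ((s : ℝ) / U) ^ 2 ≤ 1 - ((Y1 : ℝ) / Q * (1 + ((i : ℝ) + 1) * ((b : ℝ) / U / n))) ^ 2 := by
          refine le_of_eq_of_le ?_ (k.trans_eq ?_) <;> (field_simp; try ring)
        refine le_trans ?_ (semi_anti (mul_nonneg (div_nonneg hY' hQ'.le) (by linarith))
          (mul_le_mul_of_nonneg_left (by linarith : 1 + u ≤ 1 + ((i : ℝ) + 1) * ((b : ℝ) / U / n))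
            (div_nonneg hY' hQ'.le)))
        exact Real.le_sqrt_of_sq_le k1
    · intro j' hu
      have := ih (i + 1) (by exact_mod_cast hl) j' u (by push_cast [Fin.val_succ] at hu ⊢; linarith) hu0
      simpa using this

theorem phi_sound {p : ℕ} (hU : 0 < U) (hQ : 0 < Q) (hn : 0 < n) (hY : 0 ≤ Y0) :
    ∀ (l : List ℤ) (i : ℕ), phiTest U Q Y0 n i l = true → ∀ j : Fin l.length, ∀ u : ℝ,
      ((i : ℝ) + (j : ℕ)) * (1 / (n : ℝ)) ≤ u →
      semi ((Y0 : ℝ) / Q * u) ^ p ≤ ((l[j] : ℤ) : ℝ) ^ p / (U : ℝ) ^ p := by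
  intro l
  induction l with
  | nil => intro i _ j; exact absurd j.2 (by simp)
  | cons s l ih =>
    intro i h j u hu
    simp only [phiTest, Bool.and_eq_true, decide_eq_true_eq] at h
    obtain ⟨⟨hs0, hs⟩, hl⟩ := h
    refine Fin.cases (motive := fun j => ((i : ℝ) + (j : ℕ)) * (1 / (n : ℝ)) ≤ u →
      semi ((Y0 : ℝ) / Q * u) ^ p ≤ (((s :: l)[j] : ℤ) : ℝ) ^ p / (U : ℝ) ^ p) ?_ ?_ j hu
    · intro hu
      simp only [Fin.val_zero, Nat.cast_zero, add_zero] at hu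
      have hU' : (0 : ℝ) < U := by exact_mod_cast hU
      have hQ' : (0 : ℝ) < Q := by exact_mod_cast hQ
      have hn' : (0 : ℝ) < n := by exact_mod_cast hn
      have hY' : (0 : ℝ) ≤ Y0 := by exact_mod_cast hY
      simp only [Fin.getElem_fin, Fin.val_zero, List.getElem_cons_zero]
      rw [← div_pow]
      refine pow_le_pow_left₀ (Real.sqrt_nonneg _) ?_ p
      have g := (Int.cast_le (R := ℝ)).2 hs
      push_cast at g
      refine (semi_anti (by positivity) (mul_le_mul_of_nonneg_left hu (by positivity))).trans ?_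
      have k := div_le_div_of_nonneg_right g
        (show (0 : ℝ) ≤ (U : ℝ) * U * (((Q : ℝ) * n) * ((Q : ℝ) * n)) by positivity)
      refine (Real.sqrt_le_iff).2 ⟨div_nonneg (by exact_mod_cast hs0) hU'.le, ?_⟩
      refine le_of_eq_of_le ?_ (k.trans_eq ?_) <;> (field_simp; try ring)
    · intro j' hu
      have := ih (i + 1) (by exact_mod_cast hl) j' u (by push_cast [Fin.val_succ] at hu ⊢; linarith)
      simpa using this

theorem powSum_eq (p : ℕ) (U : ℝ) : ∀ l : List ℤ,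
    (l.map fun s : ℤ => (s : ℝ) ^ p / U ^ p).sum = (powSum p l : ℝ) / U ^ p
  | [] => by simp [powSum]
  | s :: l => by simp [powSum, powSum_eq p U l, add_div]

/-- The forward band at one end. -/
theorem band_end {p : ℕ} (hp : p ≠ 0) (hU : 0 < U) (hQ : 0 < Q) (hY0 : 0 ≤ Y0) (hY1 : 0 ≤ Y1)
    (hb : 0 ≤ b) {phi sig : List ℤ} {eps : ℤ} (hn : n = phi.length) (hn0 : 0 < n)
    (hs : (sig.length : ℤ) = n) (hphi : phiTest U Q Y0 n 0 phi = true)
    (hsig : sigTest U Q Y1 b n 0 sig = true) (h : eps * powSum p phi ≤ b * powSum p sig) :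
    (∫ u in (0 : ℝ)..1, semi ((Y0 : ℝ) / Q * u) ^ p) ≤
        1 / (n : ℝ) * ((powSum p phi : ℝ) / (U : ℝ) ^ p) ∧
      (eps : ℝ) / U * (1 / (n : ℝ) * ((powSum p phi : ℝ) / (U : ℝ) ^ p)) ≤
        fwdG p ((Y1 : ℝ) / Q) ((b : ℝ) / U) := by
  have hU' : (0 : ℝ) < U := by exact_mod_cast hU
  have hn' : (0 : ℝ) < n := by exact_mod_cast hn0
  have hcast : ((phi.length : ℕ) : ℝ) = (n : ℝ) := by rw [hn]; simp
  have hcast2 : ((sig.length : ℕ) : ℝ) = (n : ℝ) := by rw [← hs]; simp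
  constructor
  · have := le_riemann (g := fun u => semi ((Y0 : ℝ) / Q * u) ^ p) (by have := semi_continuous; fun_prop)
      (h := 1 / (n : ℝ)) (by positivity) (phi.map fun s : ℤ => (s : ℝ) ^ p / (U : ℝ) ^ p) 0
      (fun i u hu => by
        have := phi_sound (p := p) hU hQ hn0 hY0 phi 0 hphi ⟨i, by simpa using i.2⟩ u
          (by simpa using hu.1)
        simpa using this)
    rw [List.length_map, hcast, mul_one_div, div_self hn'.ne', zero_add, powSum_eq] at this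
    exact this
  · have := riemann_le (g := fun u => semi ((Y1 : ℝ) / Q * (1 + u)) ^ p) (fwd_cont p _)
      (h := (b : ℝ) / U / n) (by positivity) (sig.map fun s : ℤ => (s : ℝ) ^ p / (U : ℝ) ^ p) 0
      (fun i u hu => by
        have h0 : (0 : ℝ) ≤ ((i : ℕ) : ℝ) * ((b : ℝ) / U / n) := by positivity
        have h1 := hu.1
        have := sig_sound (p := p) hp hU hQ hn0 hY1 hb sig 0 hsig ⟨i, by simpa using i.2⟩ u
          (by simpa using hu.2) (by linarith)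
        simpa using this)
    rw [List.length_map, hcast2, powSum_eq, zero_add,
      show (n : ℝ) * ((b : ℝ) / U / n) = (b : ℝ) / U by field_simp] at this
    refine le_trans ?_ this
    have g := (Int.cast_le (R := ℝ)).2 h
    push_cast at g
    have k := div_le_div_of_nonneg_right g (show (0 : ℝ) ≤ (U : ℝ) * n * (U : ℝ) ^ p by positivity)
    refine le_of_eq_of_le ?_ (k.trans_eq ?_) <;> (field_simp; try ring)

variable {C : Cell} {P : Piece} {kA kB k w y t r lam : ℝ}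

/-- The back band from the series. -/
theorem back_series (hp : PieceBasic C P) (hY0 : 0 < P.Y0) (hy : y ∈ Ioo (0 : ℝ) 1) (ht : t ∈ Ioo (0 : ℝ) 1)
    (hlam : 1 ≤ lam)
    (hback : mass C.K.p semi 1 - mass C.K.p semi t ≤
      lam ^ C.K.p * (mass C.K.p semi 1 - mass C.K.p semi y))
    (hyP : (P.Y0 : ℝ) / C.Q ≤ y) (hw0 : 0 ≤ w) (hw1 : 0 ≤ 1 - w)
    (eeps : lam ^ C.K.p - 1 ≤ lin2 C.K.U w C.e0.eps C.e1.eps) (h : backTest C P = true) :
    -lin2 C.K.U w P.al0 P.al1 * (1 - y ^ 2) ≤ t / y - 1 := by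
  simp only [backTest, Bool.and_eq_true, decide_eq_true_eq] at h
  obtain ⟨⟨⟨he, he1⟩, hcross⟩, g⟩ := h
  have hU' : (0 : ℝ) < C.K.U := by exact_mod_cast hp.hU
  have hQ' : (0 : ℝ) < C.Q := by exact_mod_cast hp.hQ
  have hy0 : (0 : ℝ) < (P.Y0 : ℝ) / C.Q := div_pos (by exact_mod_cast hY0) hQ'
  refine band_back_series C.K.p hy ht hlam hback hy0 hyP ?_
  have q := (Rat.cast_le (K := ℝ)).2 g
  push_cast at q
  rw [tailUp_cast] at q
  push_cast at q
  set T := tailUp C.K.p (1 - ((P.Y0 : ℝ) / C.Q) ^ 2) (((P.Y0 : ℝ) / C.Q) ^ 2)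
  set y0 := (P.Y0 : ℝ) / C.Q
  have he' : (0 : ℝ) < C.e0.eps := by exact_mod_cast he
  have hc : (C.e1.eps : ℝ) * P.al0 ≤ P.al1 * C.e0.eps := by exact_mod_cast hcross
  have hT : 0 ≤ T := by
    have h1 : 0 ≤ 1 - y0 ^ 2 := by nlinarith [hy.2, hyP, hy0]
    exact add_nonneg (tailSum_nonneg C.K.p h1 _ _ _ zero_le_one) (by positivity)
  have q1 : (C.e1.eps : ℝ) * T ≤ P.al1 * y0 := by
    refine le_of_mul_le_mul_left ?_ he'
    have h1 : (0 : ℝ) ≤ C.e1.eps := by exact_mod_cast he1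
    nlinarith only [mul_le_mul_of_nonneg_left q h1, mul_le_mul_of_nonneg_right hc hy0.le]
  refine (mul_le_mul_of_nonneg_right eeps hT).trans ?_
  have k := div_le_div_of_nonneg_right
    (add_le_add (mul_le_mul_of_nonneg_left q hw1) (mul_le_mul_of_nonneg_left q1 hw0)) hU'.le
  refine le_of_eq_of_le ?_ (k.trans_eq ?_) <;> (simp only [lin2]; field_simp; try ring)

/-- The back band near the centre. -/
theorem back_small (hp : PieceBasic C P) (hY0 : 0 < P.Y0) (hY1 : 0 ≤ P.Y1) {Mu : ℚ}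
    (hMu : mass C.K.p semi 1 ≤ (Mu : ℝ)) (hy : y ∈ Ioo (0 : ℝ) 1) (ht : t ∈ Ioo (0 : ℝ) 1)
    (hlam : 1 ≤ lam)
    (hback : mass C.K.p semi 1 - mass C.K.p semi t ≤
      lam ^ C.K.p * (mass C.K.p semi 1 - mass C.K.p semi y))
    (hyP : (P.Y0 : ℝ) / C.Q ≤ y) (hyP' : y ≤ (P.Y1 : ℝ) / C.Q) (hw0 : 0 ≤ w) (hw1 : 0 ≤ 1 - w)
    (eeps : lam ^ C.K.p - 1 ≤ lin2 C.K.U w C.e0.eps C.e1.eps) (h : smallTest C Mu P = true) :
    -lin2 C.K.U w P.al0 P.al1 * (1 - y ^ 2) ≤ t / y - 1 := by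
  simp only [smallTest, Bool.and_eq_true, decide_eq_true_eq] at h
  obtain ⟨⟨⟨⟨ha, ha'⟩, hYQ⟩, g0⟩, g1⟩ := h
  have hU' : (0 : ℝ) < C.K.U := by exact_mod_cast hp.hU
  have hQ' : (0 : ℝ) < C.Q := by exact_mod_cast hp.hQ
  have q0 := (Rat.cast_le (K := ℝ)).2 g0
  have q1 := (Rat.cast_le (K := ℝ)).2 g1
  push_cast at q0 q1
  set y0 := (P.Y0 : ℝ) / C.Q
  set y1 := (P.Y1 : ℝ) / C.Q
  set p := C.K.p
  set n := (p + 3) / 2 with hn
  set α := lin2 C.K.U w P.al0 P.al1 with hα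
  have hα0 : 0 ≤ α := by
    rw [hα]; simp only [lin2]
    have : (0 : ℝ) ≤ P.al0 := by exact_mod_cast ha
    have : (0 : ℝ) ≤ P.al1 := by exact_mod_cast ha'
    positivity
  have key : lin2 C.K.U w C.e0.eps C.e1.eps * (Mu : ℝ) ≤ α * (y0 * (1 - y1 ^ 2) ^ n) := by
    have k := div_le_div_of_nonneg_right
      (add_le_add (mul_le_mul_of_nonneg_left q0 hw1) (mul_le_mul_of_nonneg_left q1 hw0)) hU'.le
    refine le_of_eq_of_le ?_ (k.trans_eq ?_) <;> (simp only [hα, lin2]; field_simp; try ring)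
  rw [le_sub_iff_add_le, le_div_iff₀ hy.1]
  have hs : 0 ≤ 1 - y ^ 2 := by nlinarith [hy.1, hy.2]
  rcases le_total y t with hyt | hyt
  · nlinarith [mul_nonneg (mul_nonneg hα0 hs) hy.1.le]
  have hsy := semi_pos (t := y) ⟨by linarith [hy.1], hy.2⟩
  have hi : ∀ a b : ℝ, IntervalIntegrable (fun v => semi v ^ p) MeasureTheory.volume a b := fun a b =>
    (semi_continuous.pow p).intervalIntegrable a b
  have h1 : (y - t) * semi y ^ p ≤ mass p semi y - mass p semi t := by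
    rw [mass, mass, intervalIntegral.integral_interval_sub_left (hi 0 y) (hi 0 t)]
    refine le_trans (le_of_eq (by rw [intervalIntegral.integral_const, smul_eq_mul]))
      (intervalIntegral.integral_mono_on hyt intervalIntegrable_const (hi t y) fun v hv => ?_)
    refine pow_le_pow_left₀ hsy.le (Real.sqrt_le_sqrt ?_) p
    nlinarith [hv.1, hv.2, ht.1]
  have hm0 : 0 ≤ mass p semi y := by
    rw [mass]; exact intervalIntegral.integral_nonneg hy.1.le fun v _ => pow_nonneg (Real.sqrt_nonneg _) _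
  have hε : 0 ≤ lam ^ p - 1 := sub_nonneg.2 (one_le_pow₀ hlam)
  have hM : 0 ≤ (Mu : ℝ) := le_trans (le_trans hm0 (by
    rw [← sub_nonneg, mass, mass, intervalIntegral.integral_interval_sub_left (hi 0 1) (hi 0 y)]
    exact intervalIntegral.integral_nonneg hy.2.le fun v _ => pow_nonneg (Real.sqrt_nonneg _) _)) hMu
  have h2 : (lam ^ p - 1) * (mass p semi 1 - mass p semi y) ≤ (lam ^ p - 1) * (Mu : ℝ) :=
    mul_le_mul_of_nonneg_left (by linarith) hε
  have h3 := mul_le_mul_of_nonneg_right eeps hM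
  have hy1 : y1 ≤ 1 := by
    rw [div_le_one hQ']; exact_mod_cast hYQ
  have hy10 : 0 ≤ 1 - y1 ^ 2 := by
    have : 0 ≤ y1 := div_nonneg (by exact_mod_cast hY1) hQ'.le
    nlinarith
  have h4 : (1 - y1 ^ 2) ^ n ≤ semi y ^ (p + 2) := by
    calc (1 - y1 ^ 2) ^ n ≤ (1 - y ^ 2) ^ n :=
          pow_le_pow_left₀ hy10 (by nlinarith [hy.1]) n
      _ = semi y ^ (2 * n) := by rw [pow_mul, semi_sq ⟨by linarith [hy.1], hy.2.le⟩]
      _ ≤ semi y ^ (p + 2) := pow_le_pow_of_le_one hsy.le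
            (Real.sqrt_le_one.2 (by nlinarith [hy.1])) (by omega)
  have h5 : α * (y0 * (1 - y1 ^ 2) ^ n) ≤ α * (y * semi y ^ (p + 2)) :=
    mul_le_mul_of_nonneg_left (mul_le_mul hyP h4 (pow_nonneg hy10 _) hy.1.le) hα0
  have h6 : (y - t) * semi y ^ p ≤ (α * (y * (1 - y ^ 2))) * semi y ^ p := by
    rw [pow_add, semi_sq ⟨by linarith [hy.1], hy.2.le⟩] at h5
    linarith
  have := le_of_mul_le_mul_right h6 (pow_pos hsy p)
  nlinarith

/-- The forward band that leaves the sphere inside the cell. -/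
theorem mixed_band (hp : PieceBasic C P) (hp0 : C.K.p ≠ 0) (hy : y ∈ Ioo (0 : ℝ) 1)
    (ht : t ∈ Ioo (0 : ℝ) 1) (hlam : 1 ≤ lam)
    (hfwd : mass C.K.p semi t ≤ lam ^ C.K.p * mass C.K.p semi y)
    (hyP : (P.Y0 : ℝ) / C.Q ≤ y) (hyP' : y ≤ (P.Y1 : ℝ) / C.Q) (hY : P.Y0 < P.Y1)
    (hw : w ∈ Ico (0 : ℝ) 1) (eeps : lam ^ C.K.p - 1 ≤ lin2 C.K.U w C.e0.eps C.e1.eps)
    (hbb0 : 0 ≤ P.bb0) (hbb01 : P.bb0 ≤ P.bb1) (hne : P.bb0 ≠ P.bb1) (h : mixTest C P = true) :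
    t / y - 1 ≤ lin2 C.K.U w P.bb0 P.bb1 := by
  simp only [mixTest, Bool.and_eq_true, decide_eq_true_eq] at h
  obtain ⟨⟨⟨⟨⟨⟨⟨⟨⟨⟨hY0, hn⟩, hs0⟩, hs1⟩, hbt0⟩, hbt1⟩, hphi⟩, hsg0⟩, hsg1⟩, g0⟩, g1⟩ := h
  set bt := C.K.U * (C.Q - P.Y0) / P.Y0 + 1 with hbt
  set ec := -(-((P.bb1 - bt) * C.e0.eps + (bt - P.bb0) * C.e1.eps) / (P.bb1 - P.bb0)) with hec
  have hU' : (0 : ℝ) < C.K.U := by exact_mod_cast hp.hU
  have hQ' : (0 : ℝ) < C.Q := by exact_mod_cast hp.hQ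
  have hY0' : (0 : ℝ) < P.Y0 := by exact_mod_cast hY0
  have hY1 : 0 ≤ P.Y1 := hY0.le.trans hY.le
  obtain ⟨hP, b0⟩ := band_end (p := C.K.p) hp0 hp.hU hp.hQ hY0.le hY1 hbb0 rfl hn hs0 hphi hsg0 g0
  obtain ⟨-, bc⟩ := band_end (p := C.K.p) hp0 hp.hU hp.hQ hY0.le hY1 (hbb0.trans hbt0) rfl hn hs1 hphi hsg1 g1
  have hd : 0 < P.bb1 - P.bb0 := sub_pos.2 (lt_of_le_of_ne hbb01 hne)
  -- `ec` dominates the error where the band reaches the top
  have hec' : ((P.bb1 : ℝ) - bt) * C.e0.eps + ((bt : ℝ) - P.bb0) * C.e1.eps ≤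
      (ec : ℝ) * ((P.bb1 : ℝ) - P.bb0) := by
    have := Int.ediv_mul_le (-((P.bb1 - bt) * C.e0.eps + (bt - P.bb0) * C.e1.eps)) hd.ne'
    exact_mod_cast (by rw [hec, neg_mul]; linarith :
      (P.bb1 - bt) * C.e0.eps + (bt - P.bb0) * C.e1.eps ≤ ec * (P.bb1 - P.bb0))
  have htop : (C.K.U : ℝ) * C.Q ≤ ((C.K.U : ℝ) + bt) * P.Y0 := by
    have := Int.lt_ediv_add_one_mul_self (C.K.U * (C.Q - P.Y0)) hY0
    exact_mod_cast (by rw [← hbt] at this; linarith : C.K.U * C.Q ≤ (C.K.U + bt) * P.Y0)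
  set b0' : ℝ := (P.bb0 : ℝ) / C.K.U
  set bt' : ℝ := (bt : ℝ) / C.K.U with hbt'
  have hb0' : 0 ≤ b0' := div_nonneg (by exact_mod_cast hbb0) hU'.le
  have hbt0' : b0' ≤ bt' := div_le_div_of_nonneg_right (by exact_mod_cast hbt0) hU'.le
  by_cases hcase : bt' ≤ lin2 C.K.U w P.bb0 P.bb1
  · refine le_trans ?_ hcase
    have h1 : 1 ≤ (1 + bt') * ((P.Y0 : ℝ) / C.Q) := by
      rw [hbt', ← mul_div_assoc, le_div_iff₀ hQ', one_mul, add_mul, one_mul, div_mul_eq_mul_div]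
      rw [← sub_nonneg]
      have : ((P.Y0 : ℝ) + bt * P.Y0 / C.K.U - C.Q) = (((C.K.U : ℝ) + bt) * P.Y0 - C.K.U * C.Q) / C.K.U := by
        field_simp
      rw [this]; exact div_nonneg (by linarith) hU'.le
    rw [sub_le_iff_le_add, div_le_iff₀ hy.1]
    have : (0 : ℝ) ≤ 1 + bt' := by linarith
    nlinarith only [h1, mul_le_mul_of_nonneg_left hyP this, ht.2]
  push Not at hcase
  have hlin : lin2 C.K.U w P.bb0 P.bb1 = b0' + w * (((P.bb1 : ℝ) - P.bb0) / C.K.U) := by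
    simp only [lin2, b0']; ring
  have hd' : (0 : ℝ) < ((P.bb1 : ℝ) - P.bb0) / C.K.U := div_pos (by exact_mod_cast hd) hU'
  have hlt : w * (((P.bb1 : ℝ) - P.bb0) / C.K.U) < bt' - b0' := by linarith
  have hgap : 0 < bt' - b0' := lt_of_le_of_lt (mul_nonneg hw.1 hd'.le) hlt
  set v := w * (((P.bb1 : ℝ) - P.bb0) / C.K.U) / (bt' - b0') with hv
  have hvI : v ∈ Icc (0 : ℝ) 1 :=
    ⟨div_nonneg (mul_nonneg hw.1 hd'.le) hgap.le, (div_le_one hgap).2 hlt.le⟩
  have hvb : (1 - v) * b0' + v * bt' = lin2 C.K.U w P.bb0 P.bb1 := by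
    have : v * (bt' - b0') = w * (((P.bb1 : ℝ) - P.bb0) / C.K.U) := div_mul_cancel₀ _ hgap.ne'
    rw [hlin]; linarith
  have heps : lin2 C.K.U w C.e0.eps C.e1.eps ≤
      (1 - v) * ((C.e0.eps : ℝ) / C.K.U) + v * ((ec : ℝ) / C.K.U) := by
    set d : ℝ := (P.bb1 : ℝ) - P.bb0 with hdd
    have hg : (bt' - b0') * C.K.U = (bt : ℝ) - P.bb0 := by simp only [bt', b0']; field_simp
    have hw' : w * d = v * ((bt : ℝ) - P.bb0) := by
      rw [← hg, ← mul_assoc, hv, div_mul_cancel₀ _ hgap.ne']; field_simp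
    have : w * ((C.e1.eps : ℝ) - C.e0.eps) ≤ v * ((ec : ℝ) - C.e0.eps) := by
      refine le_of_mul_le_mul_right ?_ (show (0 : ℝ) < d by rw [hdd]; exact_mod_cast hd)
      calc w * ((C.e1.eps : ℝ) - C.e0.eps) * d = w * d * ((C.e1.eps : ℝ) - C.e0.eps) := by ring
        _ = v * (((bt : ℝ) - P.bb0) * ((C.e1.eps : ℝ) - C.e0.eps)) := by rw [hw']; ring
        _ ≤ v * (((ec : ℝ) - C.e0.eps) * d) := by
          refine mul_le_mul_of_nonneg_left ?_ hvI.1
          rw [hdd]; nlinarith only [hec']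
        _ = _ := by ring
    simp only [lin2]
    rw [← sub_nonneg]
    have e : (1 - v) * ((C.e0.eps : ℝ) / C.K.U) + v * ((ec : ℝ) / C.K.U) -
        ((1 - w) * (C.e0.eps : ℝ) + w * C.e1.eps) / C.K.U =
        (v * ((ec : ℝ) - C.e0.eps) - w * ((C.e1.eps : ℝ) - C.e0.eps)) / C.K.U := by ring
    rw [e]; exact div_nonneg (by linarith) hU'.le
  refine tau_le hy ht hlam hfwd (div_nonneg hY0'.le hQ'.le) hyP hyP' ?_ (eeps.trans heps) hP ?_
  · rw [← hvb]; have := hvI.1; have := hvI.2; nlinarith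
  · rw [← hvb]
    refine le_trans ?_ (fwdG_concave (div_nonneg (by exact_mod_cast hY1) hQ'.le) hb0' hbt0' hvI)
    refine le_of_eq_of_le ?_ (add_le_add (mul_le_mul_of_nonneg_left b0 (sub_nonneg.2 hvI.2))
      (mul_le_mul_of_nonneg_left bc hvI.1))
    ring

/-- A point of the certificate is a point of the piece. -/
theorem piece_pt (hp : PieceBasic C P) (hp3 : 3 ≤ C.K.p) (h0 : EndOk C C.e0 kA) (h1 : EndOk C C.e1 kB)
    {Mu Ml : ℚ} (hMu : mass C.K.p semi 1 ≤ (Mu : ℝ)) (hMl : (Ml : ℝ) ≤ mass (C.K.p + 1) semi 1)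
    (hMl0 : 0 < Ml) (h : pieceTest C Mu Ml P = true) (hw : w ∈ Ico (0 : ℝ) 1)
    (hk : k = (1 - w) * kA + w * kB) (hy : y ∈ Ioo (0 : ℝ) 1)
    (hyP : y ∈ Ico ((P.Y0 : ℝ) / C.Q) ((P.Y1 : ℝ) / C.Q)) (ht : t ∈ Ioo (0 : ℝ) 1) (hr : 0 < r)
    (hlam : 1 ≤ lam) (hpow : lam ^ (C.K.p + 1) ≤ exp (k / ((C.K.p : ℝ) + 1)))
    (hridge : semi t ≤ lam * semi y * r) (hreach : Reach C.K.p y r)
    (hfwd : mass C.K.p semi t ≤ lam ^ C.K.p * mass C.K.p semi y)
    (hback : mass C.K.p semi 1 - mass C.K.p semi t ≤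
      lam ^ C.K.p * (mass C.K.p semi 1 - mass C.K.p semi y)) :
    Pt C P (y ^ 2) w (r - 1) (t / y - 1) := by
  have hwI := Ico_subset_Icc_self hw
  obtain ⟨eL2, elam, eeps, -, -, -, eeq⟩ := ends_sound hp.hU h0 h1 hwI hk hlam hpow
  have hU' : (0 : ℝ) < C.K.U := by exact_mod_cast hp.hU
  have hQ' : (0 : ℝ) < C.Q := by exact_mod_cast hp.hQ
  simp only [pieceTest, Bool.and_eq_true, Bool.or_eq_true, Bool.not_eq_true', decide_eq_true_eq] at h
  obtain ⟨⟨⟨⟨⟨⟨⟨⟨⟨⟨⟨⟨⟨⟨⟨⟨⟨⟨hY0, hY⟩, -⟩, -⟩, -⟩, -⟩, -⟩, -⟩, -⟩, hbk⟩, hbb0⟩, hbb01⟩, hov⟩, hS0⟩, hS0'⟩,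
    -⟩, -⟩, hrh⟩, hKx⟩ := h
  have hY0' : (0 : ℝ) ≤ P.Y0 := by exact_mod_cast hY0
  have ha0 : (0 : ℝ) ≤ (P.Y0 : ℝ) / C.Q := div_nonneg hY0' hQ'.le
  have hzlo : zq C P.Y0 ≤ y ^ 2 := pow_le_pow_left₀ ha0 hyP.1 2
  have hzhi : y ^ 2 < zq C P.Y1 := pow_lt_pow_left₀ hyP.2 hy.1.le two_ne_zero
  have hz1 : y ^ 2 < 1 := by nlinarith [hy.1, hy.2]
  have hw0 := hw.1
  have hw1 : 0 ≤ 1 - w := by linarith [hw.2]
  have hL := f_ge_semi hy ht hridge eL2
  have hL' := f_ge_semi hy ht hridge (pow_le_pow_left₀ (by linarith) elam 2)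
  have ety : 1 + (t / y - 1) = t / y := by ring
  refine ⟨⟨hzlo, hzhi⟩, sq_nonneg _, hz1, hw, by linarith, ?_, fun hb => ?_, ?_, ?_, ?_, ?_,
    by linarith, ?_, fun hρ => ?_, fun hK0 => ?_⟩
  · have := div_pos ht.1 hy.1; linarith
  · -- back band
    rw [hb] at hbk
    simp only [Bool.true_eq_false, false_or] at hbk
    obtain ⟨hY0p, (⟨g0, g1⟩ | hbt) | hsm⟩ := hbk
    rotate_left
    · exact back_series hp hY0p hy ht hlam hback hyP.1 hw0 hw1 eeps hbt
    · exact back_small hp hY0p (hY0.trans hY.le) hMu hy ht hlam hback hyP.1 hyP.2.le hw0 hw1 eeps hsm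
    have hY0p' : (0 : ℝ) < P.Y0 := by exact_mod_cast hY0p
    refine tau_ge hy ht hlam hback (z0 := zq C P.Y0) (pow_pos (div_pos hY0p' hQ') 2) hzlo ?_
    refine eeps.trans ?_
    have q0 := (Int.cast_le (R := ℝ)).2 g0
    have q1 := (Int.cast_le (R := ℝ)).2 g1
    push_cast at q0 q1
    have k := div_le_div_of_nonneg_right
      (add_le_add (mul_le_mul_of_nonneg_left q0 hw1) (mul_le_mul_of_nonneg_left q1 hw0))
      (show (0 : ℝ) ≤ (C.K.U : ℝ) * ((C.Q : ℝ) * C.Q) by positivity)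
    refine le_of_eq_of_le ?_ (k.trans_eq ?_) <;> (simp only [lin2, zq]; field_simp; try ring)
  · -- forward band
    have hb0' : (0 : ℝ) ≤ P.bb0 := by exact_mod_cast hbb0
    cases hovf : P.ovf
    · simp only [hovf, Bool.false_eq_true, if_false, Bool.and_eq_true, decide_eq_true_eq] at hov
      obtain ⟨⟨⟨⟨⟨⟨⟨⟨hn, hs0⟩, hs1⟩, -⟩, hphi⟩, hsg0⟩, hsg1⟩, g0⟩, g1⟩ := hov
      have hY1 : 0 ≤ P.Y1 := hY0.trans hY.le
      obtain ⟨hP, b0⟩ := band_end (p := C.K.p) (by omega) hp.hU hp.hQ hY0 hY1 hbb0 rfl hn hs0 hphi hsg0 g0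
      obtain ⟨-, b1⟩ := band_end (p := C.K.p) (by omega) hp.hU hp.hQ hY0 hY1 (hbb0.trans hbb01) rfl hn
        hs1 hphi hsg1 g1
      have hbb : (P.bb0 : ℝ) / C.K.U ≤ (P.bb1 : ℝ) / C.K.U := by gcongr
      have el : lin2 C.K.U w P.bb0 P.bb1 = (1 - w) * ((P.bb0 : ℝ) / C.K.U) + w * ((P.bb1 : ℝ) / C.K.U) := by
        simp only [lin2]; ring
      refine tau_le hy ht hlam hfwd ha0 hyP.1 hyP.2.le ?_ eeps hP ?_
      · rw [el]
        have : (0 : ℝ) ≤ (P.bb0 : ℝ) / C.K.U := div_nonneg hb0' hU'.le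
        nlinarith only [this, hbb, hw0]
      · rw [el]
        refine le_trans ?_ (fwdG_concave (div_nonneg (by exact_mod_cast hY1) hQ'.le)
          (div_nonneg hb0' hU'.le) hbb hwI)
        refine le_of_eq_of_le ?_ (add_le_add (mul_le_mul_of_nonneg_left b0 hw1)
          (mul_le_mul_of_nonneg_left b1 hw0))
        simp only [lin2]; ring
    · simp only [hovf, if_true] at hov
      by_cases heq : P.bb0 = P.bb1
      swap
      · rw [if_neg heq] at hov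
        exact mixed_band hp (by omega) hy ht hlam hfwd hyP.1 hyP.2.le hY hw eeps hbb0 hbb01 heq hov
      rw [if_pos heq] at hov
      have g := of_decide_eq_true hov
      have q := (Int.cast_le (R := ℝ)).2 g
      push_cast at q
      have e : lin2 C.K.U w P.bb0 P.bb1 = (P.bb0 : ℝ) / C.K.U := by
        simp only [lin2, ← heq]; ring
      rw [e]
      have h1 : 1 ≤ (1 + (P.bb0 : ℝ) / C.K.U) * ((P.Y0 : ℝ) / C.Q) := by
        refine (pow_le_pow_iff_left₀ zero_le_one (by positivity) two_ne_zero).1 ?_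
        have k := div_le_div_of_nonneg_right q
          (show (0 : ℝ) ≤ (C.K.U : ℝ) * C.K.U * ((C.Q : ℝ) * C.Q) by positivity)
        refine le_of_eq_of_le ?_ (k.trans_eq ?_) <;> (field_simp; try ring)
      rw [sub_le_iff_le_add, div_le_iff₀ hy.1]
      have h2 : (0 : ℝ) ≤ 1 + (P.bb0 : ℝ) / C.K.U := by positivity
      nlinarith only [h1, mul_le_mul_of_nonneg_left hyP.1 h2, ht.2]
  · -- `t ≤ 1`
    have h : 0 ≤ 1 - y ^ 2 * (1 + (t / y - 1)) ^ 2 := by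
      rw [ety, ← mul_pow, mul_div_cancel₀ _ hy.1.ne']
      nlinarith only [ht.1, ht.2]
    linarith
  · rw [show 1 + (r - 1) = r by ring]; exact hL
  · rw [show 1 + (r - 1) = r by ring]; exact hL'
  · -- the band times `z`
    have h := band_back C.K.p hy ht hlam hback
    have hA : (0 : ℝ) < (C.K.p : ℝ) + 2 := by positivity
    rw [le_div_iff₀ (mul_pos hA hy.1)] at h
    have hs : 0 ≤ 1 - y ^ 2 := by linarith
    have e : y ^ 2 * (t / y - 1) = y * t - y ^ 2 := by field_simp [hy.1.ne']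
    rw [e]
    have h3 := mul_le_mul_of_nonneg_right (eeps.trans eeq) hs
    nlinarith only [h, h3, hA]
  · -- `Reach`
    rcases hrh with hrh | hrh
    · omega
    obtain ⟨⟨⟨⟨⟨hT1, hT1'⟩, hv⟩, hW⟩, hW'⟩, hρ'⟩ := hrh
    have qS := (Int.cast_le (R := ℝ)).2 hS0'
    have qT := (Int.cast_le (R := ℝ)).2 hT1'
    push_cast at qS qT
    rw [show 1 + (r - 1) = r by ring]
    refine r_ge_reach hy hr hreach (z0 := zq C P.Y0) (z1 := zq C P.Y1) (S0 := (P.S0 : ℝ) / C.K.U)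
      (T1 := (P.T1 : ℝ) / C.K.U) (v0 := (P.v0 : ℝ) / C.K.U) (X := (P.W : ℝ) / C.K.U)
      hzlo hzhi.le (div_nonneg (by exact_mod_cast hS0) hU'.le) ?_
      (div_pos (by exact_mod_cast hT1) hU') ?_ hMu hMl ?_
      (div_le_div_of_nonneg_right (by exact_mod_cast hW) hU'.le) ?_ ?_
    · have k := div_le_div_of_nonneg_right qS
        (show (0 : ℝ) ≤ (C.K.U : ℝ) * C.K.U * ((C.Q : ℝ) * C.Q) by positivity)
      refine le_of_eq_of_le ?_ (k.trans_eq ?_) <;> (try simp only [zq]) <;> (field_simp; try ring)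
    · have k := div_le_div_of_nonneg_right qT
        (show (0 : ℝ) ≤ (C.K.U : ℝ) * C.K.U * ((C.Q : ℝ) * C.Q) by positivity)
      refine le_of_eq_of_le ?_ (k.trans_eq ?_) <;> (try simp only [zq]) <;> (field_simp; try ring)
    · have q := (Rat.cast_le (K := ℝ)).2 hv
      push_cast at q
      rw [tailBQ_cast] at q
      push_cast at q
      simp only [zq, div_pow, pow_two, div_mul_div_comm] at q ⊢
      exact q
    · have q := (Rat.cast_le (K := ℝ)).2 hW'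
      push_cast at q
      rw [tailBQ_cast] at q
      push_cast at q
      simp only [zq, div_pow, pow_two, div_mul_div_comm] at q ⊢
      exact q
    · have q := (Rat.cast_le (K := ℝ)).2 hρ'
      push_cast at q
      exact q
  · -- the excess
    rcases hKx with hKx | hKx
    · omega
    obtain ⟨⟨hW, hW'⟩, hK'⟩ := hKx
    have qS := (Int.cast_le (R := ℝ)).2 hS0'
    push_cast at qS
    rw [show 1 + (r - 1) = r by ring]
    refine excess_le (by omega) hy hr hreach (z0 := zq C P.Y0) (S0 := (P.S0 : ℝ) / C.K.U)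
      (W := (P.W1 : ℝ) / C.K.U) hzlo (div_nonneg (by exact_mod_cast hS0) hU'.le) ?_ hMu
      (by exact_mod_cast hMl0) hMl ?_ ?_ ?_
    · have k := div_le_div_of_nonneg_right qS
        (show (0 : ℝ) ≤ (C.K.U : ℝ) * C.K.U * ((C.Q : ℝ) * C.Q) by positivity)
      refine le_of_eq_of_le ?_ (k.trans_eq ?_) <;> (try simp only [zq]) <;> (field_simp; try ring)
    · rw [le_div_iff₀ hU', one_mul]; exact_mod_cast hW
    · have q := (Rat.cast_le (K := ℝ)).2 hW'
      push_cast at q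
      exact q
    · have q := (Rat.cast_le (K := ℝ)).2 hK'
      push_cast at q
      exact q

end Vale.Agent.P237.All.Finite
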