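import Vale.Agent.P237.All.Finite.Sound.LeafMain

/-!
P237, finitely many dimensions: a passed subdivision bounds the bracket on a piece.
-/

noncomputable section

namespace Vale.Agent.P237.All.Finite

open Transport.Finite (Par Scal)

variable {C : Cell} {P : Piece} {be z w δ τ : ℝ}

/-- A passed subdivision bounds the bracket on its box. -/
theorem tree_sound (hp : PieceBasic C P) (hB : 1 ≤ C.B) (hp3 : 3 ≤ C.K.p) (hbe : 1 ≤ be)
    (hK : C.K.Ok be) (hL : 0 < C.e0.L2 ∧ 0 < C.e1.L2) (hpt : Pt C P z w δ τ) :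
    ∀ (t : Tree) (b : Box), InBox C P b z w δ τ →
      treeTest C.K C.e0 C.e1 P (ctx C (Msk.of C.B C.K.N) P) b t = true → Bounded C P be z w δ τ
  | .leaf L, b, hb, h => leaf_sound hp hB hp3 hbe hK hpt hb h
  | .splitX m lo hi, b, hb, h => by
    simp only [treeTest, Bool.and_eq_true, decide_eq_true_eq] at h
    obtain ⟨⟨hm, h0⟩, h1⟩ := h
    obtain ⟨ha, hbb, hl, hh⟩ := hb
    rcases le_total δ ((m : ℝ) / C.K.U) with hd | hd
    · exact tree_sound hp hB hp3 hbe hK hL hpt lo { b with h := some m }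
        ⟨ha, hbb, hl, fun h' e => by obtain rfl := Option.some.inj e; exact hd⟩ h0
    · exact tree_sound hp hB hp3 hbe hK hL hpt hi { b with l := m } ⟨ha, hbb, hd, hh⟩ h1
  | .splitT m lo hi, b, hb, h => by
    simp only [treeTest, Bool.and_eq_true] at h
    obtain ⟨ha, hbb, hl, hh⟩ := hb
    rcases le_total τ ((m : ℝ) / C.K.U) with hd | hd
    · exact tree_sound hp hB hp3 hbe hK hL hpt lo { b with bBand := false, tb := m } ⟨ha, by simpa using hd, hl, hh⟩ h.1
    · exact tree_sound hp hB hp3 hbe hK hL hpt hi { b with aBand := false, ta := m } ⟨by simpa using hd, hbb, hl, hh⟩ h.2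
  | .lowR l t, b, hb, h => by
    simp only [treeTest, Bool.and_eq_true, decide_eq_true_eq] at h
    obtain ⟨⟨hr, hl⟩, ht⟩ := h
    obtain ⟨ha, hbb, -, hh⟩ := hb
    refine tree_sound hp hB hp3 hbe hK hL hpt t { b with l := l } ⟨ha, hbb, ?_, hh⟩ ht
    have hU : (0 : ℝ) < C.K.U := by exact_mod_cast hp.hU
    have h1 := hpt.hrho hr
    have h2 : (C.K.U : ℝ) + l ≤ P.rho := by exact_mod_cast hl
    rw [div_le_iff₀ hU] at h1 ⊢
    linarith
  | .lowS l hb' t, b, hb, h => by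
    simp only [treeTest, Bool.and_eq_true] at h
    have hcap := h.1.1.1.1.1.2
    simp only [Bool.and_eq_true, decide_eq_true_eq, ctx, Frame.strict_eq, IPar.strict_eq] at h
    obtain ⟨⟨⟨⟨⟨⟨hr, hup⟩, h00⟩, h10⟩, h01⟩, h11⟩, ht⟩ := h
    obtain ⟨ha, hbb, -, hh⟩ := hb
    refine tree_sound hp hB hp3 hbe hK hL hpt t { b with l := l } ⟨ha, hbb, ?_, hh⟩
      (by simpa [ctx, Frame.strict_eq, IPar.strict_eq] using ht)
    have hU : (0 : ℝ) < C.K.U := by exact_mod_cast hp.hU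
    have hQ : (C.Q : ℝ) ≠ 0 := by exact_mod_cast hp.hQ.ne'
    have hw0 := hpt.hw.1
    have hw1 : 0 ≤ 1 - w := by linarith [hpt.hw.2]
    have hτ : τ ≤ (hb' : ℝ) / C.K.U := by
      cases hB' : b.bBand
      · simp only [hB', Bool.false_eq_true, if_false, decide_eq_true_eq] at hup hbb
        exact hbb.trans (by gcongr)
      · simp only [hB', if_true, Bool.and_eq_true, decide_eq_true_eq] at hcap hbb
        exact cap_sound hp.hU hp.hQ hpt (Msk.of C.B C.K.N) hcap.1 hcap.2 hbb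
    have hLp : 0 < lin2 C.K.U w C.e0.L2 C.e1.L2 := by
      have a0 : (0 : ℝ) < C.e0.L2 := by exact_mod_cast hL.1
      have a1 : (0 : ℝ) < C.e1.L2 := by exact_mod_cast hL.2
      refine div_pos ?_ hU
      rcases le_total w (1 / 2) with hc | hc
      · nlinarith only [hc, hw0, a0, a1]
      · nlinarith only [hc, hw1, a0, a1]
    have g00 := (Int.cast_le (R := ℝ)).2 h00
    have g10 := (Int.cast_le (R := ℝ)).2 h10
    have g01 := (Int.cast_le (R := ℝ)).2 h01
    have g11 := (Int.cast_le (R := ℝ)).2 h11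
    push_cast at g00 g10 g01 g11
    have key : ∀ Y : ℤ,
        ((C.K.U : ℝ) + l) * (C.K.U + l) * C.e0.L2 * (C.Q * C.Q - Y * Y) ≤
          C.K.U * (C.K.U * C.K.U * (C.Q * C.Q) - Y * Y * (C.K.U + hb') * (C.K.U + hb')) →
        ((C.K.U : ℝ) + l) * (C.K.U + l) * C.e1.L2 * (C.Q * C.Q - Y * Y) ≤
          C.K.U * (C.K.U * C.K.U * (C.Q * C.Q) - Y * Y * (C.K.U + hb') * (C.K.U + hb')) →
        (1 + (l : ℝ) / C.K.U) ^ 2 * lin2 C.K.U w C.e0.L2 C.e1.L2 * (1 - zq C Y) ≤
          1 - zq C Y * (1 + (hb' : ℝ) / C.K.U) ^ 2 := by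
      intro Y a b
      have k := add_le_add (mul_le_mul_of_nonneg_left a hw1) (mul_le_mul_of_nonneg_left b hw0)
      have k' := div_le_div_of_nonneg_right k
        (show (0 : ℝ) ≤ (C.K.U : ℝ) ^ 3 * (C.Q : ℝ) ^ 2 by positivity)
      refine le_of_eq_of_le ?_ (k'.trans_eq ?_) <;> (simp only [lin2, zq]; field_simp; try ring)
    have hge := Transport.Finite.r_ge (r := 1 + δ) (ρ := 1 + (l : ℝ) / C.K.U) ⟨hpt.hz.1, hpt.hz.2.le⟩
      hpt.hz1 hpt.hz0 (by linarith [hpt.hδ]) hLp hτ (by linarith [hpt.hτ]) hpt.hL2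
      (key P.Y0 g00 g10) (key P.Y1 g01 g11)
    linarith

end Vale.Agent.P237.All.Finite
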